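import Vale.Agent.P369.Fock.Inf

/-!
P369: from full-rank states on boxes to all finite-energy states.
-/

namespace Vale.Agent.P369.Fock

noncomputable section

open Matrix Finset Filter
open scoped ComplexConjugate ComplexOrder Matrix.Norms.L2Operator Topology

variable {n : ℕ}

/-- density operator with finite mean photon number -/
structure IsState (ρ : Op n) : Prop extends Pre ρ where
  trace_one : HasSum (fun a : Fin n → ℕ => (ρ a a).re) 1

theorem trace_cfc_re {ι : Type*} [Fintype ι] [DecidableEq ι] {A : Matrix ι ι ℂ}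
    (hA : A.IsHermitian) (g : ℝ → ℝ) : (cfc g A).trace.re = ∑ i, g (hA.eigenvalues i) := by
  have := trace_mul_cfc 1 hA g
  rw [one_mul, mul_one, eig_star_mul] at this
  rw [this, Complex.re_sum]
  simp

theorem vN_smul {ι : Type*} [Fintype ι] [DecidableEq ι] {X : Matrix ι ι ℂ}
    (hX : X.IsHermitian) (c : ℝ) :
    vN (c • X) = c * vN X + Real.negMulLog c * X.trace.re := by
  have : IsSelfAdjoint X := hX.isSelfAdjoint
  rw [vN, ← cfc_comp_smul c Real.negMulLog X (hf := Real.continuous_negMulLog.continuousOn),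
    trace_cfc_re hX, vN_eq_sum hX, trace_re_eq_sum hX, mul_sum, mul_sum, ← sum_add_distrib]
  refine sum_congr rfl fun i _ => ?_
  rw [smul_eq_mul, Real.negMulLog_mul]
  ring

variable {K : ℕ}

theorem att_smul (η c : ℝ) (X : Matrix (Box n K) (Box n K) ℂ) :
    att η (c • X) = c • att η X := by
  simp only [att, Matrix.mul_smul, Matrix.smul_mul, smul_sum]

theorem continuous_att (η : ℝ) :
    Continuous (att η : Matrix (Box n K) (Box n K) ℂ → Matrix (Box n K) (Box n K) ℂ) :=
  continuous_finsetSum _ fun _ _ => (continuous_const.mul continuous_id).mul continuous_const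

/-- full rank suffices -/
theorem psd_of_posDef {η : ℝ} {F : ℝ → ℝ} (hF : Continuous F)
    (h : ∀ σ : Matrix (Box n K) (Box n K) ℂ, σ.PosDef → σ.trace = 1 →
      F (vN σ) ≤ vN (att η σ))
    {σ : Matrix (Box n K) (Box n K) ℂ} (hσ : σ.PosSemidef) (ht : σ.trace = 1) :
    F (vN σ) ≤ vN (att η σ) := by
  set d : ℝ := (Fintype.card (Box n K) : ℝ) with hd
  have hd0 : 0 < d := by rw [hd]; exact_mod_cast Fintype.card_pos
  set θ : ℕ → ℝ := fun m => 1 / ((m : ℝ) + 2) with hθ
  set S : ℕ → Matrix (Box n K) (Box n K) ℂ :=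
    fun m => (1 - θ m) • σ + (θ m / d) • 1 with hS
  have hθ0 : ∀ m, 0 < θ m := fun m => by positivity
  have hθ1 : ∀ m, θ m ≤ 1 := fun m => by
    rw [hθ]; dsimp only
    rw [div_le_one (by positivity)]
    have : (0:ℝ) ≤ m := Nat.cast_nonneg m
    linarith
  have hpd : ∀ m, (S m).PosDef := fun m =>
    Matrix.PosDef.posSemidef_add (hσ.smul (by linarith [hθ1 m]))
      (Matrix.PosDef.one.smul (div_pos (hθ0 m) hd0))
  have htr : ∀ m, (S m).trace = 1 := fun m => by
    rw [hS, trace_add, trace_smul, trace_smul, ht, trace_one]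
    simp only [Complex.real_smul, mul_one]
    rw [← Complex.ofReal_natCast, ← Complex.ofReal_mul, ← hd, div_mul_cancel₀ _ hd0.ne',
      ← Complex.ofReal_add]
    simp
  have hθl : Tendsto θ atTop (𝓝 0) := by
    have := (tendsto_one_div_add_atTop_nhds_zero_nat (𝕜 := ℝ)).comp (tendsto_add_atTop_nat 1)
    refine this.congr fun m => ?_
    simp only [hθ, Function.comp_apply, Nat.cast_add, Nat.cast_one]
    ring
  have hSl : Tendsto S atTop (𝓝 σ) := by
    have := ((tendsto_const_nhds (x := (1:ℝ))).sub hθl).smul (tendsto_const_nhds (x := σ))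
    have := this.add ((hθl.div_const d).smul
      (tendsto_const_nhds (x := (1 : Matrix (Box n K) (Box n K) ℂ))))
    simpa [hS] using this
  have hv : ∀ {T : ℕ → Matrix (Box n K) (Box n K) ℂ} {Y : Matrix (Box n K) (Box n K) ℂ},
      Tendsto T atTop (𝓝 Y) → Y.IsHermitian → (∀ m, (T m).IsHermitian) →
        Tendsto (fun m => vN (T m)) atTop (𝓝 (vN Y)) := fun hT hY hTm =>
    (continuousOn_vN _ hY).tendsto.comp
      (tendsto_nhdsWithin_iff.2 ⟨hT, Eventually.of_forall hTm⟩)
  exact le_of_tendsto_of_tendsto'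
    ((hF.tendsto _).comp (hv hSl hσ.isHermitian fun m => (hpd m).isHermitian))
    (hv (((continuous_att η).tendsto _).comp hSl) (posSemidef_att η hσ).isHermitian
      fun m => (posSemidef_att η (hpd m).posSemidef).isHermitian)
    fun m => h _ (hpd m) (htr m)

theorem kcoef_nonneg (η : ℝ) (i m : Fin n → ℕ) : 0 ≤ kcoef η i m :=
  prod_nonneg fun _ _ => Real.sqrt_nonneg _

theorem kcoef_le_one {η : ℝ} (h0 : 0 ≤ η) (h1 : η ≤ 1) (i m : Fin n → ℕ) : kcoef η i m ≤ 1 := by
  refine prod_le_one (fun _ _ => Real.sqrt_nonneg _) fun j _ => Real.sqrt_le_one.2 ?_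
  have hv : 0 ≤ 1 - η := by linarith
  have := add_pow (1 - η) η (i j + m j)
  rw [sub_add_cancel, one_pow] at this
  refine le_of_le_of_eq ?_ this.symm
  refine le_of_eq_of_le ?_ (single_le_sum (fun x _ => by positivity)
    (mem_range.2 (show m j < i j + m j + 1 by omega)))
  rw [Nat.add_sub_cancel]
  ring

variable {ρ : Op n} {η : ℝ}

/-- the attenuated compressions, read on a smaller box -/
def attRes (η : ℝ) (L K : ℕ) (ρ : Op n) : Matrix (Box n L) (Box n L) ℂ :=
  Matrix.of fun k k' => ext (att η (compress K ρ)) (occ k) (occ k')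

theorem attRes_apply {L K : ℕ} (hLK : L ≤ K) (k k' : Box n L) :
    attRes η L K ρ k k' = ∑' m : Fin n → ℕ,
      if (∀ j, (occ k + m) j ≤ K) ∧ ∀ j, (occ k' + m) j ≤ K then
        ((kcoef η (occ k) m * kcoef η (occ k') m : ℝ) : ℂ) * ρ (occ k + m) (occ k' + m)
      else 0 := by
  classical
  obtain ⟨l, hl⟩ := exists_occ (K := K) (a := occ k) fun j => (occ_le k j).trans hLK
  obtain ⟨l', hl'⟩ := exists_occ (K := K) (a := occ k') fun j => (occ_le k' j).trans hLK
  rw [attRes, of_apply, ← hl, ← hl', ext_occ, att_apply,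
    tsum_eq_sum (s := (univ : Finset (Box n K)).image occ) (fun m hm => if_neg fun h => hm ?_),
    sum_image fun a _ b _ h => occ_injective h]
  · refine sum_congr rfl fun m _ => ?_
    rw [ext_compress, hl, hl']
    split_ifs <;> simp
  · obtain ⟨x, hx⟩ := exists_occ (K := K) (a := m) fun j => by
      have := h.1 j; simp only [Pi.add_apply] at this; omega
    exact mem_image.2 ⟨x, mem_univ _, hx⟩

theorem summable_bound (h : Pre ρ) (a b : Fin n → ℕ) :
    Summable fun m : Fin n → ℕ => (ρ (a + m) (a + m)).re + (ρ (b + m) (b + m)).re :=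
  (h.summable_diag.comp_injective (add_right_injective a)).add
    (h.summable_diag.comp_injective (add_right_injective b))

theorem norm_term_le (h : Pre ρ) (h0 : 0 ≤ η) (h1 : η ≤ 1) (a b m : Fin n → ℕ) :
    ‖((kcoef η a m * kcoef η b m : ℝ) : ℂ) * ρ (a + m) (b + m)‖ ≤
      (ρ (a + m) (a + m)).re + (ρ (b + m) (b + m)).re := by
  rw [norm_mul, Complex.norm_real,
    Real.norm_of_nonneg (mul_nonneg (kcoef_nonneg η a m) (kcoef_nonneg η b m))]
  exact (mul_le_of_le_one_left (norm_nonneg _)
    (mul_le_one₀ (kcoef_le_one h0 h1 a m) (kcoef_nonneg η b m) (kcoef_le_one h0 h1 b m))).trans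
    (h.norm_le _ _)

theorem tendsto_attRes (h : Pre ρ) (h0 : 0 ≤ η) (h1 : η ≤ 1) (L : ℕ) :
    Tendsto (fun K => attRes η L K ρ) atTop (𝓝 (compress L (attInf η ρ))) := by
  refine tendsto_pi_nhds.2 fun k => tendsto_pi_nhds.2 fun k' => ?_
  refine (tendsto_tsum_of_dominated_convergence (summable_bound h (occ k) (occ k'))
    (g := fun m : Fin n → ℕ =>
      ((kcoef η (occ k) m * kcoef η (occ k') m : ℝ) : ℂ) * ρ (occ k + m) (occ k' + m))
    (f := fun K (m : Fin n → ℕ) => if (∀ j, (occ k + m) j ≤ K) ∧ ∀ j, (occ k' + m) j ≤ K then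
        ((kcoef η (occ k) m * kcoef η (occ k') m : ℝ) : ℂ) * ρ (occ k + m) (occ k' + m) else 0)
    (fun m => tendsto_const_nhds.congr' ?_) (Eventually.of_forall fun K m => ?_)).congr' ?_
  · filter_upwards [eventually_ge_atTop ((∑ j, (occ k + m) j) + ∑ j, (occ k' + m) j)] with K hK
    refine (if_pos ⟨fun j => ?_, fun j => ?_⟩).symm
    · have := single_le_sum (f := occ k + m) (fun _ _ => Nat.zero_le _) (mem_univ j); omega
    · have := single_le_sum (f := occ k' + m) (fun _ _ => Nat.zero_le _) (mem_univ j); omega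
  · split
    · exact norm_term_le h h0 h1 _ _ _
    · rw [norm_zero]; exact add_nonneg (h.diag_nonneg _) (h.diag_nonneg _)
  · filter_upwards [eventually_ge_atTop L] with K hK using (attRes_apply hK k k').symm

theorem posSemidef_attRes (h : Pre ρ) (η : ℝ) {L K : ℕ} (hLK : L ≤ K) :
    (attRes η L K ρ).PosSemidef := by
  have : attRes η L K ρ = (att η (compress K ρ)).submatrix
      (fun k j => Fin.castLE (by omega) (k j)) (fun k j => Fin.castLE (by omega) (k j)) := by
    ext k k'
    rw [submatrix_apply, ← ext_occ (att η (compress K ρ))]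
    rfl
  rw [this]
  exact (posSemidef_att η (h.psd K)).submatrix _

theorem posSemidef_attInf (h : Pre ρ) (h0 : 0 ≤ η) (h1 : η ≤ 1) (L : ℕ) :
    (compress L (attInf η ρ)).PosSemidef := by
  have hev : ∀ᶠ K in atTop, (attRes η L K ρ).PosSemidef := by
    filter_upwards [eventually_ge_atTop L] with K hK using posSemidef_attRes h η hK
  have ht := tendsto_attRes h h0 h1 L
  refine PosSemidef.of_dotProduct_mulVec_nonneg ?_ fun x => ?_
  · exact tendsto_nhds_unique (((continuous_id.matrix_conjTranspose).tendsto _).comp ht)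
      (ht.congr' (hev.mono fun K hK => hK.isHermitian.symm))
  · exact ge_of_tendsto (((continuous_const.dotProduct
      ((continuous_id).matrix_mulVec continuous_const)).tendsto _).comp ht)
      (hev.mono fun K hK => hK.dotProduct_mulVec_nonneg x)

theorem energy_att_le (h : Pre ρ) (h0 : 0 ≤ η) (h1 : η ≤ 1) (K : ℕ) :
    ∑ k : Box n K, (deg k : ℝ) * (att η (compress K ρ) k k).re ≤
      ∑' a : Fin n → ℕ, ((∑ j, a j : ℕ) : ℝ) * (ρ a a).re := by
  classical
  set Y : Matrix (Box n K) (Box n K) ℂ :=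
    diagonal fun k => (deg k : ℂ) * compress K ρ k k with hY
  have hle := h.energy.sum_le_tsum
    ((univ : Finset (Box n K)).image occ) fun a _ => h.energy_term_nonneg a
  have heq : (att η Y).trace.re =
      ∑ a ∈ (univ : Finset (Box n K)).image occ, ((∑ j, a j : ℕ) : ℝ) * (ρ a a).re := by
    rw [trace_att h0 h1, hY, trace_diagonal, Complex.re_sum,
      sum_image fun a _ b _ h => occ_injective h]
    exact sum_congr rfl fun k _ => by simp [compress, deg]
  refine le_trans (le_of_le_of_eq ?_ heq) hle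
  rw [trace, Complex.re_sum]
  refine sum_le_sum fun i _ => ?_
  rw [diag_apply, att_apply, att_apply, Complex.re_sum, Complex.re_sum, mul_sum]
  refine sum_le_sum fun m _ => ?_
  rw [Complex.re_ofReal_mul, Complex.re_ofReal_mul, mul_left_comm]
  refine mul_le_mul_of_nonneg_left ?_ (mul_nonneg (kcoef_nonneg _ _ _) (kcoef_nonneg _ _ _))
  by_cases hb : ∀ j, (occ i + occ m) j ≤ K
  · obtain ⟨k, hk⟩ := exists_occ hb
    rw [← hk, ext_occ, ext_occ, hY, diagonal_apply_eq]
    simp only [compress, of_apply]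
    rw [← Complex.ofReal_natCast, Complex.re_ofReal_mul]
    refine mul_le_mul_of_nonneg_right ?_ (h.diag_nonneg _)
    have hdeg : deg k = deg i + deg m := by simp [deg, hk, sum_add_distrib]
    exact_mod_cast hdeg ▸ Nat.le_add_right _ _
  · push Not at hb
    obtain ⟨j, hj⟩ := hb
    rw [ext_eq_zero_left _ hj, ext_eq_zero_left _ hj]
    simp

theorem att_diag_le (h : Pre ρ) (h0 : 0 ≤ η) (h1 : η ≤ 1) (K : ℕ) (k : Box n K) :
    (att η (compress K ρ) k k).re ≤ (attInf η ρ (occ k) (occ k)).re := by
  have hnn : ∀ m : Fin n → ℕ,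
      0 ≤ (kcoef η (occ k) m * kcoef η (occ k) m) * (ρ (occ k + m) (occ k + m)).re :=
    fun m => mul_nonneg (mul_self_nonneg _) (h.diag_nonneg _)
  have hS : Summable fun m : Fin n → ℕ =>
      ((kcoef η (occ k) m * kcoef η (occ k) m : ℝ) : ℂ) * ρ (occ k + m) (occ k + m) :=
    Summable.of_norm_bounded (summable_bound h _ _) fun m => norm_term_le h h0 h1 _ _ m
  have e := attRes_apply (η := η) (ρ := ρ) (le_refl K) k k
  rw [attRes, of_apply, ext_occ] at e
  have hS' : Summable fun m : Fin n → ℕ =>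
      if (∀ j, (occ k + m) j ≤ K) ∧ ∀ j, (occ k + m) j ≤ K then
        ((kcoef η (occ k) m * kcoef η (occ k) m : ℝ) : ℂ) * ρ (occ k + m) (occ k + m) else 0 :=
    Summable.of_norm_bounded (summable_bound h _ _) fun m => by
      split
      · exact norm_term_le h h0 h1 _ _ m
      · rw [norm_zero]; exact add_nonneg (h.diag_nonneg _) (h.diag_nonneg _)
  rw [e, attInf, Complex.re_tsum hS', Complex.re_tsum hS]
  refine Summable.tsum_le_tsum (fun m => ?_) (Complex.reCLM.summable hS')
    (Complex.reCLM.summable hS)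
  split
  · exact le_rfl
  · rw [Complex.zero_re, Complex.re_ofReal_mul]; exact hnn m

theorem pre_attInf (h : Pre ρ) (h0 : 0 ≤ η) (h1 : η ≤ 1) : Pre (attInf η ρ) := by
  classical
  have hd : ∀ a, 0 ≤ (attInf η ρ a a).re := by
    intro a
    obtain ⟨k, hk⟩ := exists_occ (K := ∑ j, a j) (a := a) (fun j => single_le_sum
      (f := a) (fun _ _ => Nat.zero_le _) (mem_univ j))
    have := (Complex.nonneg_iff.1
      ((posSemidef_attInf h h0 h1 (∑ j, a j)).diag_nonneg (i := k))).1
    simpa [compress, hk] using this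
  refine ⟨posSemidef_attInf h h0 h1, summable_of_sum_le
    (c := ∑' a : Fin n → ℕ, ((∑ j, a j : ℕ) : ℝ) * (ρ a a).re)
    (fun a => mul_nonneg (Nat.cast_nonneg _) (hd a)) fun s => ?_⟩
  set L := s.sup fun a => ∑ j, a j
  refine (sum_le_sum_of_subset_of_nonneg (t := (univ : Finset (Box n L)).image occ)
    (fun a ha => ?_) fun a _ _ => mul_nonneg (Nat.cast_nonneg _) (hd a)).trans ?_
  · obtain ⟨k, hk⟩ := exists_occ (K := L) (a := a) fun j =>
      (single_le_sum (f := a) (fun _ _ => Nat.zero_le _) (mem_univ j)).trans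
        (le_sup (f := fun a => ∑ j, a j) ha)
    exact mem_image.2 ⟨k, mem_univ _, hk⟩
  rw [sum_image fun a _ b _ h => occ_injective h]
  have hlim : Tendsto (fun K => ∑ k : Box n L, (deg k : ℝ) * (attRes η L K ρ k k).re) atTop
      (𝓝 (∑ k : Box n L, (deg k : ℝ) * (attInf η ρ (occ k) (occ k)).re)) :=
    tendsto_finsetSum _ fun k _ => ((Complex.continuous_re.tendsto _).comp
      (((tendsto_attRes h h0 h1 L).apply_nhds k).apply_nhds k)).const_mul _
  refine le_of_tendsto hlim ?_
  filter_upwards [eventually_ge_atTop L] with K hK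
  refine le_trans ?_ (energy_att_le h h0 h1 K)
  let e : Box n L → Box n K := fun k j => Fin.castLE (by omega) (k j)
  have hinj : Function.Injective e := fun a b h => occ_injective (funext fun j => congrArg (Fin.val ∘ fun f : Box n K => f j) h)
  calc ∑ k : Box n L, (deg k : ℝ) * (attRes η L K ρ k k).re
      = ∑ x ∈ (univ : Finset (Box n L)).image e, (deg x : ℝ) * (att η (compress K ρ) x x).re := by
        rw [sum_image fun a _ b _ h => hinj h]
        refine sum_congr rfl fun k _ => ?_
        rw [← ext_occ (att η (compress K ρ)) (e k) (e k)]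
        rfl
    _ ≤ _ := sum_le_sum_of_subset_of_nonneg (subset_univ _) fun x _ _ =>
        mul_nonneg (Nat.cast_nonneg _)
          (Complex.nonneg_iff.1 ((posSemidef_att η (h.psd K)).diag_nonneg (i := x))).1

/-- from full-rank box states to all finite-energy states -/
theorem entropy_transfer {F : ℝ → ℝ} (hF : Continuous F) (h0 : 0 ≤ η) (h1 : η ≤ 1)
    (hbox : ∀ K, ∀ σ : Matrix (Box n K) (Box n K) ℂ, σ.PosDef → σ.trace = 1 →
      F (vN σ) ≤ vN (att η σ))
    (h : IsState ρ) : F (entropy ρ) ≤ entropy (attInf η ρ) := by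
  classical
  have hP := h.toPre
  have hQ := pre_attInf hP h0 h1
  set c : ℕ → ℝ := fun K => (compress K ρ).trace.re with hc
  have hcl : Tendsto c atTop (𝓝 1) := by
    have := tendsto_sum_box _ hP.summable_diag
    rw [h.trace_one.tsum_eq] at this
    refine this.congr fun K => ?_
    simp [hc, trace, compress, Complex.re_sum]
  have hcr : ∀ K, (compress K ρ).trace = (c K : ℂ) := fun K => by
    have him := congrArg Complex.im (hP.psd K).isHermitian.trace_eq_sum_eigenvalues
    simp [Complex.im_sum] at him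
    exact Complex.ext (by simp [hc]) (by simpa using him)
  set Fn : ℕ → ℝ := fun K => F ((c K)⁻¹ * vN (compress K ρ) + Real.negMulLog (c K)⁻¹ * c K)
  have hFl : Tendsto Fn atTop (𝓝 (F (entropy ρ))) := by
    have h1' := (hcl.inv₀ one_ne_zero)
    have := (h1'.mul (tendsto_entropy hP)).add
      (((Real.continuous_negMulLog.tendsto _).comp h1').mul hcl)
    rw [inv_one, one_mul, Real.negMulLog_one, zero_mul, add_zero] at this
    exact (hF.tendsto _).comp this
  have hcpos : ∀ᶠ K in atTop, 0 < c K := hcl.eventually_const_lt one_pos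
  have key : ∀ L, F (entropy ρ) ≤
      vN (compress L (attInf η ρ)) + (2 * tail L (attInf η ρ) + 2 ^ n / (L + 1)) := by
    intro L
    have hvl : Tendsto (fun K => vN (attRes η L K ρ)) atTop
        (𝓝 (vN (compress L (attInf η ρ)))) :=
      (continuousOn_vN _ (hQ.psd L).isHermitian).tendsto.comp
        (tendsto_nhdsWithin_iff.2 ⟨tendsto_attRes hP h0 h1 L,
          (eventually_ge_atTop L).mono fun K hK => (posSemidef_attRes hP η hK).isHermitian⟩)
    have hG : Tendsto (fun K => (c K)⁻¹ *
        (vN (attRes η L K ρ) + (2 * tail L (attInf η ρ) + 2 ^ n / (L + 1))) +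
          Real.negMulLog (c K)⁻¹ * c K) atTop
        (𝓝 (vN (compress L (attInf η ρ)) + (2 * tail L (attInf η ρ) + 2 ^ n / (L + 1)))) := by
      have h1' := (hcl.inv₀ one_ne_zero)
      have := (h1'.mul (hvl.add_const (2 * tail L (attInf η ρ) + 2 ^ n / (L + 1)))).add
        (((Real.continuous_negMulLog.tendsto _).comp h1').mul hcl)
      rwa [inv_one, one_mul, Real.negMulLog_one, zero_mul, add_zero] at this
    refine le_of_tendsto_of_tendsto hFl hG ?_
    filter_upwards [hcpos, eventually_ge_atTop L] with K hK hLK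
    have hX := hP.psd K
    have hσ : ((c K)⁻¹ • compress K ρ).PosSemidef := hX.smul (inv_nonneg.2 hK.le)
    have ht : ((c K)⁻¹ • compress K ρ).trace = 1 := by
      rw [trace_smul, hcr, Complex.real_smul, ← Complex.ofReal_mul, inv_mul_cancel₀ hK.ne',
        Complex.ofReal_one]
    have := psd_of_posDef hF (hbox K) hσ ht
    rw [att_smul, vN_smul hX.isHermitian, vN_smul (posSemidef_att η hX).isHermitian,
      trace_att h0 h1, hcr, Complex.ofReal_re] at this
    refine this.trans (add_le_add (mul_le_mul_of_nonneg_left ?_ (inv_nonneg.2 hK.le)) le_rfl)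
    refine (vN_le_tail hLK (posSemidef_att η hX)).trans
      (add_le_add le_rfl (add_le_add (mul_le_mul_of_nonneg_left ?_ two_pos.le) le_rfl))
    have hsum : Summable fun a : Fin n → ℕ =>
        if ∀ j, a j ≤ L then (0:ℝ) else ((∑ j, a j : ℕ) : ℝ) * (attInf η ρ a a).re :=
      hQ.energy.of_nonneg_of_le (fun a => by split; exacts [le_rfl, hQ.energy_term_nonneg a])
        (fun a => by split; exacts [hQ.energy_term_nonneg a, le_rfl])
    have h2 := hsum.sum_le_tsum ((univ : Finset (Box n K)).image occ)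
      (fun a _ => by split; exacts [le_rfl, hQ.energy_term_nonneg a])
    rw [sum_image fun a _ b _ h => occ_injective h] at h2
    refine le_trans (sum_le_sum fun k _ => ?_) h2
    by_cases hk : ∀ j, (k j : ℕ) ≤ L
    · rw [if_pos hk, if_pos (show ∀ j, occ k j ≤ L from hk)]
    · rw [if_neg hk, if_neg (show ¬ ∀ j, occ k j ≤ L from hk)]
      exact mul_le_mul_of_nonneg_left (att_diag_le hP h0 h1 K k) (Nat.cast_nonneg _)
  have hlim : Tendsto (fun L : ℕ => vN (compress L (attInf η ρ)) +
      (2 * tail L (attInf η ρ) + 2 ^ n / (L + 1))) atTop (𝓝 (entropy (attInf η ρ))) := by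
    simpa [div_eq_mul_inv] using (tendsto_entropy hQ).add (((tendsto_tail hQ).const_mul 2).add
      ((tendsto_one_div_add_atTop_nhds_zero_nat (𝕜 := ℝ)).const_mul ((2:ℝ) ^ n)))
  exact ge_of_tendsto' hlim key

end

end Vale.Agent.P369.Fock
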