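import Vale.Agent.P369.Fock.EntropyFlow

/-!
P369: derivative of the matrix logarithm along a curve, in any eigenbasis of the base point.
-/

namespace Vale.Agent.P369.Fock

noncomputable section

open Matrix Finset Filter
open scoped ComplexConjugate ComplexOrder Matrix.Norms.L2Operator Topology

set_option linter.unusedSectionVars false

variable {ι : Type*} [Fintype ι] [DecidableEq ι]

/-- divided difference of the logarithm -/
def lamD (a b : ℝ) : ℝ := dslope Real.log 1 (a / b) / b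

theorem lamD_mul {a b : ℝ} (ha : 0 < a) (hb : 0 < b) :
    (a - b) * lamD a b = Real.log a - Real.log b := by
  by_cases h : a = b
  · simp [h]
  have hne : a / b ≠ 1 := fun hh => h (div_eq_one_iff_eq hb.ne' |>.1 hh)
  rw [lamD, dslope_of_ne _ hne, slope_def_field, Real.log_one, sub_zero, Real.log_div ha.ne' hb.ne']
  have : a / b - 1 ≠ 0 := sub_ne_zero.2 hne
  field_simp

theorem lamD_self {a : ℝ} (ha : 0 < a) : lamD a a = 1 / a := by
  rw [lamD, div_self ha.ne', dslope_same, Real.deriv_log, inv_one]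

theorem continuousAt_lamD {a b : ℝ} (ha : 0 < a) (hb : 0 < b) :
    ContinuousAt (fun p : ℝ × ℝ => lamD p.1 p.2) (a, b) := by
  have h1 : ContinuousAt (dslope Real.log 1) (a / b) := by
    refine ((continuousOn_dslope (s := Set.Ioi (0:ℝ)) (Ioi_mem_nhds one_pos)).2
      ⟨Real.continuousOn_log.mono fun x hx => ne_of_gt (Set.mem_Ioi.1 hx),
        Real.differentiableAt_log one_ne_zero⟩).continuousAt (Ioi_mem_nhds (div_pos ha hb))
  have h2 : ContinuousAt (fun p : ℝ × ℝ => p.1 / p.2) (a, b) :=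
    continuousAt_fst.div continuousAt_snd hb.ne'
  have h3 : ContinuousAt (fun p : ℝ × ℝ => dslope Real.log 1 (p.1 / p.2)) (a, b) :=
    h1.comp_of_eq h2 rfl
  exact h3.div continuousAt_snd hb.ne'

/-- the derivative of `log` at `V diag(b) Vᴴ` applied to `X` -/
def dLog (V : Matrix ι ι ℂ) (b : ι → ℝ) (X : Matrix ι ι ℂ) : Matrix ι ι ℂ :=
  V * (Matrix.of fun i j => (lamD (b i) (b j) : ℂ) * (Vᴴ * X * V) i j) * Vᴴ

theorem intertwine {W : Matrix ι ι ℂ} {a b : ι → ℝ}
    (h : diagonal (fun i => (a i : ℂ)) * W = W * diagonal (fun i => (b i : ℂ)))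
    (g : ℝ → ℝ) :
    diagonal (fun i => (g (a i) : ℂ)) * W = W * diagonal (fun i => (g (b i) : ℂ)) := by
  ext i j
  have := congrFun (congrFun h i) j
  rw [diagonal_mul, mul_diagonal] at this ⊢
  by_cases hW : W i j = 0
  · simp [hW]
  have hab : a i = b j := by
    exact_mod_cast mul_right_cancel₀ hW (this.trans (mul_comm _ _))
  rw [hab, mul_comm]

theorem log_spec {A : Matrix ι ι ℂ} (hA : A.IsHermitian) :
    CFC.log A = (hA.eigenvectorUnitary : Matrix ι ι ℂ) *
      diagonal (fun i => (Real.log (hA.eigenvalues i) : ℂ)) *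
        (hA.eigenvectorUnitary : Matrix ι ι ℂ)ᴴ := by
  rw [CFC.log, hA.cfc_eq, IsHermitian.cfc, Unitary.conjStarAlgAut_apply]
  rfl

theorem eig_conj {A : Matrix ι ι ℂ} (hA : A.IsHermitian) :
    (hA.eigenvectorUnitary : Matrix ι ι ℂ)ᴴ * A * (hA.eigenvectorUnitary : Matrix ι ι ℂ) =
      diagonal fun i => (hA.eigenvalues i : ℂ) := by
  simpa [Unitary.conjStarAlgAut_apply, star_eq_conjTranspose, Function.comp_def] using
    hA.conjStarAlgAut_star_eigenvectorUnitary

theorem posDef_eig_pos {V : Matrix ι ι ℂ} {b : ι → ℝ} {A : Matrix ι ι ℂ} (hV1 : Vᴴ * V = 1)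
    (hA : A = V * diagonal (fun i => (b i : ℂ)) * Vᴴ) (hp : A.PosDef) (i : ι) : 0 < b i := by
  have h : (Vᴴ * A * V) = diagonal fun i => (b i : ℂ) := by
    rw [hA]
    simp only [Matrix.mul_assoc]
    rw [hV1, Matrix.mul_one, ← Matrix.mul_assoc Vᴴ, hV1, Matrix.one_mul]
  have hinj : Function.Injective V.mulVec := fun x y hxy => by
    have := congrArg (Vᴴ.mulVec ·) hxy
    simpa [Matrix.mulVec_mulVec, hV1] using this
  have hd := (hp.conjTranspose_mul_mul_same hinj).diag_pos (i := i)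
  rw [h, diagonal_apply_eq] at hd
  exact_mod_cast hd

/-- log in any eigenbasis -/
theorem log_eq {A V : Matrix ι ι ℂ} {b : ι → ℝ} (hV1 : Vᴴ * V = 1) (hV2 : V * Vᴴ = 1)
    (hA : A = V * diagonal (fun i => (b i : ℂ)) * Vᴴ) (hh : A.IsHermitian) :
    CFC.log A = V * diagonal (fun i => (Real.log (b i) : ℂ)) * Vᴴ := by
  set U := (hh.eigenvectorUnitary : Matrix ι ι ℂ) with hU
  have hAV : A * V = V * diagonal (fun i => (b i : ℂ)) := by
    rw [hA, Matrix.mul_assoc, hV1, Matrix.mul_one]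
  have h0 : diagonal (fun i => (hh.eigenvalues i : ℂ)) * (Uᴴ * V) =
      (Uᴴ * V) * diagonal (fun i => (b i : ℂ)) := by
    rw [← eig_conj hh, Matrix.mul_assoc Uᴴ V, ← hAV]
    simp only [Matrix.mul_assoc]
    rw [← Matrix.mul_assoc U, eig_mul_star, Matrix.one_mul]
  have h1 := congrArg (U * ·) (intertwine h0 Real.log)
  simp only [← Matrix.mul_assoc] at h1
  rw [eig_mul_star, Matrix.one_mul] at h1
  rw [log_spec hh, ← hU, ← h1]
  simp only [Matrix.mul_assoc]
  rw [hV2, Matrix.mul_one]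

/-- difference quotient of the logarithm, exactly -/
theorem log_sub_log {B A V : Matrix ι ι ℂ} {b : ι → ℝ} (hB : B.PosDef)
    (hV1 : Vᴴ * V = 1) (hV2 : V * Vᴴ = 1) (hA : A = V * diagonal (fun i => (b i : ℂ)) * Vᴴ)
    (hp : A.PosDef) (c : ℝ) :
    c • (CFC.log B - CFC.log A) = (hB.isHermitian.eigenvectorUnitary : Matrix ι ι ℂ) *
      (Matrix.of fun i j => (lamD (hB.isHermitian.eigenvalues i) (b j) : ℂ) *
        ((hB.isHermitian.eigenvectorUnitary : Matrix ι ι ℂ)ᴴ * (c • (B - A)) * V) i j) * Vᴴ := by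
  set hb := hB.isHermitian
  set U := (hb.eigenvectorUnitary : Matrix ι ι ℂ) with hU
  have e : Uᴴ * (c • (CFC.log B - CFC.log A)) * V = Matrix.of fun i j =>
      (lamD (hb.eigenvalues i) (b j) : ℂ) * (Uᴴ * (c • (B - A)) * V) i j := by
    have hl : Uᴴ * (CFC.log B - CFC.log A) * V =
        diagonal (fun i => (Real.log (hb.eigenvalues i) : ℂ)) * (Uᴴ * V) -
          (Uᴴ * V) * diagonal (fun i => (Real.log (b i) : ℂ)) := by
      rw [Matrix.mul_sub, Matrix.sub_mul, log_spec hb, log_eq hV1 hV2 hA hp.isHermitian]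
      simp only [Matrix.mul_assoc, ← hU]
      rw [hV1, Matrix.mul_one, ← Matrix.mul_assoc Uᴴ U, eig_star_mul, Matrix.one_mul]
    have hs : Uᴴ * (B - A) * V =
        diagonal (fun i => (hb.eigenvalues i : ℂ)) * (Uᴴ * V) -
          (Uᴴ * V) * diagonal (fun i => (b i : ℂ)) := by
      rw [Matrix.mul_sub, Matrix.sub_mul, ← eig_conj hb, hA]
      simp only [Matrix.mul_assoc, ← hU]
      rw [hV1, Matrix.mul_one, ← Matrix.mul_assoc U, eig_mul_star, Matrix.one_mul]
    ext i j
    simp only [Matrix.mul_smul, Matrix.smul_mul, of_apply, Matrix.smul_apply, hl, hs,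
      Matrix.sub_apply, diagonal_mul, mul_diagonal, Complex.real_smul]
    have := congrArg (fun x : ℝ => (x : ℂ))
      (lamD_mul (hB.eigenvalues_pos i) (posDef_eig_pos hV1 hA hp j))
    push_cast at this
    linear_combination (-(c : ℂ) * (Uᴴ * V) i j) * this
  rw [← e]
  simp only [← Matrix.mul_assoc]
  rw [eig_mul_star, Matrix.one_mul, Matrix.mul_assoc, hV2, Matrix.mul_one]

theorem isCompact_unitary : IsCompact {U : Matrix ι ι ℂ | Uᴴ * U = 1} := by
  refine (ProperSpace.isCompact_closedBall (0 : Matrix ι ι ℂ) 1).of_isClosed_subset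
    (isClosed_eq ((continuous_id.matrix_conjTranspose).mul continuous_id) continuous_const)
    fun U hU => ?_
  rw [mem_closedBall_zero_iff]
  have h := CStarRing.norm_star_mul_self (x := U)
  rw [star_eq_conjTranspose, show Uᴴ * U = 1 from hU] at h
  rcases subsingleton_or_nontrivial (Matrix ι ι ℂ) with hs | hs
  · rw [Subsingleton.elim U 0, norm_zero]; exact zero_le_one
  rw [norm_one] at h
  nlinarith [norm_nonneg U]

theorem tendsto_hadamard {α : Type*} {l : Filter α} {U B Z : α → Matrix ι ι ℂ}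
    {U0 B0 Z0 V : Matrix ι ι ℂ} {a b : ι → ℝ} (hU : Tendsto U l (𝓝 U0))
    (hB : Tendsto B l (𝓝 B0)) (hZ : Tendsto Z l (𝓝 Z0)) (ha : ∀ i, (B0 i i).re = a i)
    (hapos : ∀ i, 0 < a i) (hbpos : ∀ i, 0 < b i) :
    Tendsto (fun s => U s * (Matrix.of fun i j =>
      (lamD (B s i i).re (b j) : ℂ) * ((U s)ᴴ * Z s * V) i j) * Vᴴ) l
      (𝓝 (U0 * (Matrix.of fun i j => (lamD (a i) (b j) : ℂ) * (U0ᴴ * Z0 * V) i j) * Vᴴ)) := by
  have hUh : Tendsto (fun s => (U s)ᴴ) l (𝓝 U0ᴴ) :=
    ((continuous_id.matrix_conjTranspose).tendsto U0).comp hU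
  have hM : Tendsto (fun s => (U s)ᴴ * Z s * V) l (𝓝 (U0ᴴ * Z0 * V)) :=
    (hUh.mul hZ).mul tendsto_const_nhds
  refine (hU.mul ?_).mul tendsto_const_nhds
  refine tendsto_pi_nhds.2 fun i => tendsto_pi_nhds.2 fun j => ?_
  simp only [of_apply]
  refine Tendsto.mul ?_ ((hM.apply_nhds i).apply_nhds j)
  have h1 : Tendsto (fun s => ((B s i i).re, b j)) l (𝓝 (a i, b j)) :=
    (ha i ▸ ((Complex.continuous_re.tendsto (B0 i i)).comp
      ((hB.apply_nhds i).apply_nhds i))).prodMk_nhds tendsto_const_nhds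
  have hc : Tendsto (fun p : ℝ × ℝ => lamD p.1 p.2) (𝓝 (a i, b j)) (𝓝 (lamD (a i) (b j))) :=
    continuousAt_lamD (hapos i) (hbpos j)
  exact (Complex.continuous_ofReal.tendsto _).comp (hc.comp h1)

theorem hadamard_basis {U0 V X : Matrix ι ι ℂ} {a b : ι → ℝ}
    (hU0 : U0 * U0ᴴ = 1) (hV2 : V * Vᴴ = 1)
    (hW : diagonal (fun i => (a i : ℂ)) * (U0ᴴ * V) =
      (U0ᴴ * V) * diagonal (fun i => (b i : ℂ))) :
    U0 * (Matrix.of fun i j => (lamD (a i) (b j) : ℂ) * (U0ᴴ * X * V) i j) * Vᴴ =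
      dLog V b X := by
  have : (Matrix.of fun i j => (lamD (a i) (b j) : ℂ) * (U0ᴴ * X * V) i j) =
      (U0ᴴ * V) * Matrix.of fun i j => (lamD (b i) (b j) : ℂ) * (Vᴴ * X * V) i j := by
    ext i j
    have e : U0ᴴ * X * V = (U0ᴴ * V) * (Vᴴ * X * V) := by
      simp only [Matrix.mul_assoc]
      rw [← Matrix.mul_assoc V, hV2, Matrix.one_mul]
    rw [e, of_apply, mul_apply, mul_apply, mul_sum]
    refine sum_congr rfl fun k _ => ?_
    rw [of_apply]
    have := congrFun (congrFun (intertwine hW fun x => lamD x (b j)) i) k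
    rw [diagonal_mul, mul_diagonal] at this
    linear_combination (Vᴴ * X * V) k j * this
  rw [this, dLog, ← Matrix.mul_assoc, ← Matrix.mul_assoc, hU0, Matrix.one_mul]

/-- derivative of the logarithm along a curve of full-rank matrices -/
theorem hasDerivAt_log {A : ℝ → Matrix ι ι ℂ} {A' : Matrix ι ι ℂ} {t : ℝ}
    (hpd : ∀ᶠ s in 𝓝 t, (A s).PosDef) (hd : HasDerivAt A A' t)
    {V : Matrix ι ι ℂ} {b : ι → ℝ} (hV1 : Vᴴ * V = 1) (hV2 : V * Vᴴ = 1)
    (hA : A t = V * diagonal (fun i => (b i : ℂ)) * Vᴴ) :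
    HasDerivAt (fun s => CFC.log (A s)) (dLog V b A') t := by
  rw [hasDerivAt_iff_tendsto_slope, tendsto_iff_ultrafilter]
  intro g hg
  have hsl : Tendsto (slope A t) g (𝓝 A') :=
    (hasDerivAt_iff_tendsto_slope.1 hd).mono_left hg
  have hpd' : ∀ᶠ s in (g : Filter ℝ), (A s).PosDef :=
    (hpd.filter_mono nhdsWithin_le_nhds).filter_mono hg
  have hAs : Tendsto A g (𝓝 (A t)) :=
    (hd.continuousAt.tendsto.mono_left nhdsWithin_le_nhds).mono_left hg
  classical
  let U : ℝ → Matrix ι ι ℂ := fun s =>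
    if h : (A s).PosDef then (h.isHermitian.eigenvectorUnitary : Matrix ι ι ℂ) else 1
  have hUmem : ∀ s, U s ∈ {U : Matrix ι ι ℂ | Uᴴ * U = 1} := fun s => by
    simp only [U, Set.mem_ofPred_eq]
    split
    · exact eig_star_mul _
    · simp
  obtain ⟨U0, hU0, hlim⟩ := isCompact_unitary.ultrafilter_le_nhds (g.map U)
    (le_principal_iff.2 (Filter.mem_map.2 (Filter.univ_mem' hUmem)))
  have hUl : Tendsto U g (𝓝 U0) := hlim
  have hU0' : U0 * U0ᴴ = 1 := mul_eq_one_comm.1 hU0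
  -- the limiting spectrum
  set D := U0ᴴ * A t * U0 with hD
  have hDl : Tendsto (fun s => (U s)ᴴ * A s * U s) g (𝓝 D) :=
    (((continuous_id.matrix_conjTranspose).tendsto U0).comp hUl |>.mul hAs).mul hUl
  have hDdiag : ∀ i j, i ≠ j → D i j = 0 := fun i j hij => by
    refine tendsto_nhds_unique ((hDl.apply_nhds i).apply_nhds j)
      (tendsto_const_nhds.congr' (hpd'.mono fun s hs => ?_))
    simp only [U, dif_pos hs, eig_conj, diagonal_apply_ne _ hij]
  set a : ι → ℝ := fun i => (D i i).re with ha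
  have hpt : (A t).PosDef := hpd.self_of_nhds
  have hDh : D.IsHermitian := isHermitian_conjTranspose_mul_mul _ hpt.isHermitian
  have hDe : D = diagonal fun i => (a i : ℂ) := by
    ext i j
    by_cases hij : i = j
    · subst hij
      rw [diagonal_apply_eq]
      exact (hDh.coe_re_apply_self i).symm
    · rw [diagonal_apply_ne _ hij, hDdiag i j hij]
  have hapos : ∀ i, 0 < a i := fun i => by
    refine posDef_eig_pos (A := A t) hU0 ?_ hpt i
    rw [← hDe, hD]
    simp only [← Matrix.mul_assoc]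
    rw [hU0', Matrix.one_mul, Matrix.mul_assoc, hU0', Matrix.mul_one]
  have hbpos : ∀ i, 0 < b i := fun i => posDef_eig_pos hV1 hA hpt i
  have hW : diagonal (fun i => (a i : ℂ)) * (U0ᴴ * V) =
      (U0ᴴ * V) * diagonal (fun i => (b i : ℂ)) := by
    rw [← hDe, hD, hA]
    simp only [Matrix.mul_assoc]
    rw [← Matrix.mul_assoc U0, hU0', Matrix.one_mul, hV1, Matrix.mul_one]
  -- identify the limit
  have hZ := tendsto_hadamard (V := V) hUl hDl hsl (fun i => rfl) hapos hbpos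
  rw [hadamard_basis hU0' hV2 hW] at hZ
  refine hZ.congr' (hpd'.mono fun s hs => ?_)
  simp only [slope_def_module, U, dif_pos hs]
  rw [log_sub_log hs hV1 hV2 hA hpt]
  have heig : ∀ i, (((hs.isHermitian.eigenvectorUnitary : Matrix ι ι ℂ)ᴴ * A s *
      (hs.isHermitian.eigenvectorUnitary : Matrix ι ι ℂ)) i i).re = hs.isHermitian.eigenvalues i :=
    fun i => by rw [eig_conj, diagonal_apply_eq, Complex.ofReal_re]
  simp only [heig]

variable {n K : ℕ}

theorem lossGen_sum (X Y : Matrix (Box n K) (Box n K) ℂ) :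
    lossGen (X + Y) = lossGen X + lossGen Y := by
  simp only [lossGen, Matrix.mul_add, Matrix.add_mul, smul_add, sub_eq_add_neg, neg_add,
    ← sum_add_distrib]
  refine sum_congr rfl fun j _ => ?_
  abel

theorem lossGen_smul (c : ℝ) (X : Matrix (Box n K) (Box n K) ℂ) :
    lossGen (c • X) = c • lossGen X := by
  simp only [lossGen, Matrix.mul_smul, Matrix.smul_mul, smul_add, smul_sub, smul_sum,
    smul_comm c (2⁻¹ : ℂ)]

/-- the dissipation `D = -dS/dt` along the flow -/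
def diss (ρ : Matrix (Box n K) (Box n K) ℂ) : ℝ := (lossGen ρ * CFC.log ρ).trace.re

/-- `dD/dt = Tr (L L ρ_t log ρ_t) + Tr (L ρ_t · Dlog[L ρ_t])` -/
theorem hasDerivAt_diss {t : ℝ} (ht : 0 < t) {ρ : Matrix (Box n K) (Box n K) ℂ} (hρ : ρ.PosDef)
    {V : Matrix (Box n K) (Box n K) ℂ} {b : Box n K → ℝ} (hV1 : Vᴴ * V = 1) (hV2 : V * Vᴴ = 1)
    (hA : flow t ρ = V * diagonal (fun i => (b i : ℂ)) * Vᴴ) :
    HasDerivAt (fun s => diss (flow s ρ))
      ((lossGen (lossGen (flow t ρ)) * CFC.log (flow t ρ)).trace.re +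
        (lossGen (flow t ρ) * dLog V b (lossGen (flow t ρ))).trace.re) t := by
  have hpd : ∀ᶠ s in 𝓝 t, (flow s ρ).PosDef := by
    filter_upwards [Ioi_mem_nhds ht] with s hs using posDef_flow (Set.mem_Ioi.1 hs).le hρ
  have hlog := hasDerivAt_log hpd (hasDerivAt_flow_matrix t ρ) hV1 hV2 hA
  let L : Matrix (Box n K) (Box n K) ℂ →L[ℝ] Matrix (Box n K) (Box n K) ℂ :=
    LinearMap.toContinuousLinearMap
      { toFun := lossGen, map_add' := lossGen_sum, map_smul' := lossGen_smul }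
  have hgen : HasDerivAt (fun s => lossGen (flow s ρ)) (lossGen (lossGen (flow t ρ))) t :=
    L.hasFDerivAt.comp_hasDerivAt t (hasDerivAt_flow_matrix t ρ)
  let T : Matrix (Box n K) (Box n K) ℂ →L[ℝ] ℝ :=
    LinearMap.toContinuousLinearMap
      { toFun := fun M => M.trace.re
        map_add' := fun M N => by simp [trace_add]
        map_smul' := fun c M => by simp [trace_smul] }
  exact (T.hasFDerivAt.comp_hasDerivAt t (hgen.mul hlog)).congr_deriv (by simp [T, trace_add])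

end

end Vale.Agent.P369.Fock
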