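import Vale.Agent.P369.Fock.BeamSplitter
import Vale.Agent.P369.Fock.LogDeriv
import Vale.Agent.P369.Fock.Transfer

/-!
P369: the infinite-dimensional attenuator is the beam-splitter output with the vacuum; it maps states
to states; the entropy limit is `-∑ pᵢ log pᵢ` for any spectral decomposition.
-/

namespace Vale.Agent.P369.Fock

noncomputable section

open Matrix Finset Filter
open scoped ComplexConjugate ComplexOrder Matrix.Norms.L2Operator Topology

variable {n : ℕ} {ρ : Op n} {η : ℝ}

/-- partial trace over the `b`-modes of `U (ρ ⊗ vacuum) U†` on the whole Fock space -/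
def bsOutInf (η : ℝ) (ρ : Op n) : Op n := fun a b =>
  ∑' m : Fin n → ℕ, ∑' k : Fin n → ℕ, ∑' k' : Fin n → ℕ,
    bsAmp η k a m * ρ k k' * conj (bsAmp η k' b m)

theorem bsOutInf_eq_attInf (h0 : 0 ≤ η) (h1 : η ≤ 1) (ρ : Op n) :
    bsOutInf η ρ = attInf η ρ := by
  funext a b
  refine tsum_congr fun m => ?_
  rw [tsum_eq_single (a + m) (fun k hk => by
    simp [bsAmp_eq h0 h1, hk]), tsum_eq_single (b + m) (fun k hk => by
    simp [bsAmp_eq h0 h1, hk])]
  rw [bsAmp_eq h0 h1, bsAmp_eq h0 h1, if_pos rfl, if_pos rfl, Complex.conj_ofReal]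
  have hs : ((-1 : ℂ) ^ (∑ j, m j)) * (-1) ^ (∑ j, m j) = 1 := by rw [← mul_pow]; simp
  push_cast
  linear_combination ((kcoef η a m : ℂ) * ρ (a + m) (b + m) * (kcoef η b m : ℂ)) * hs

theorem isState_attInf (h : IsState ρ) (h0 : 0 ≤ η) (h1 : η ≤ 1) :
    IsState (attInf η ρ) := by
  classical
  have hP := h.toPre
  have hQ := pre_attInf hP h0 h1
  refine { toPre := hQ, trace_one := ?_ }
  have hlim := tendsto_sum_box _ hQ.summable_diag
  have hc := tendsto_sum_box _ hP.summable_diag
  rw [h.trace_one.tsum_eq] at hc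
  have hlow : ∀ K, ∑ k : Box n K, (ρ (occ k) (occ k)).re ≤
      ∑ k : Box n K, (attInf η ρ (occ k) (occ k)).re := by
    intro K
    refine le_trans (le_of_eq ?_) (sum_le_sum fun k _ => att_diag_le hP h0 h1 K k)
    have := congrArg Complex.re (trace_att h0 h1 (compress K ρ))
    simpa [trace, compress, Complex.re_sum] using this.symm
  have hup : ∀ L, ∑ k : Box n L, (attInf η ρ (occ k) (occ k)).re ≤ 1 := by
    intro L
    have hl : Tendsto (fun K => ∑ k : Box n L, (attRes η L K ρ k k).re) atTop
        (𝓝 (∑ k : Box n L, (attInf η ρ (occ k) (occ k)).re)) :=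
      tendsto_finsetSum _ fun k _ => (Complex.continuous_re.tendsto _).comp
        (((tendsto_attRes hP h0 h1 L).apply_nhds k).apply_nhds k)
    refine le_of_tendsto hl ?_
    filter_upwards [eventually_ge_atTop L] with K hK
    let e : Box n L → Box n K := fun k j => Fin.castLE (by omega) (k j)
    have hinj : Function.Injective e := fun a b h =>
      occ_injective (funext fun j => congrArg (Fin.val ∘ fun f : Box n K => f j) h)
    calc ∑ k : Box n L, (attRes η L K ρ k k).re
        = ∑ x ∈ (univ : Finset (Box n L)).image e, (att η (compress K ρ) x x).re := by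
          rw [sum_image fun a _ b _ h => hinj h]
          refine sum_congr rfl fun k _ => ?_
          rw [← ext_occ (att η (compress K ρ)) (e k) (e k)]
          rfl
      _ ≤ ∑ x : Box n K, (att η (compress K ρ) x x).re :=
          sum_le_sum_of_subset_of_nonneg (subset_univ _) fun x _ _ =>
            (Complex.nonneg_iff.1 ((posSemidef_att η (hP.psd K)).diag_nonneg (i := x))).1
      _ = ∑ k : Box n K, (ρ (occ k) (occ k)).re := by
          have := congrArg Complex.re (trace_att h0 h1 (compress K ρ))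
          simpa [trace, compress, Complex.re_sum] using this
      _ ≤ 1 := by
          have := h.trace_one.summable.sum_le_tsum ((univ : Finset (Box n K)).image occ)
            (fun a _ => hP.diag_nonneg a)
          rw [sum_image fun a _ b _ h => occ_injective h, h.trace_one.tsum_eq] at this
          exact this
  have e : ∑' a, (attInf η ρ a a).re = 1 :=
    le_antisymm (le_of_tendsto' hlim hup) (le_of_tendsto_of_tendsto' hc hlim hlow)
  exact e ▸ hQ.summable_diag.hasSum

section gram

open Polynomial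

variable {α β : Type*} [Fintype α] [DecidableEq α] [Fintype β] [DecidableEq β]

theorem vN_eq_roots {A : Matrix α α ℂ} (hA : A.IsHermitian) :
    vN A = (A.charpoly.roots.map fun z => Real.negMulLog z.re).sum := by
  rw [vN_eq_sum hA, hA.roots_charpoly_eq_eigenvalues, Multiset.map_map, Finset.sum]
  congr 1

theorem vN_gram (V : Matrix α β ℂ) : vN (V * Vᴴ) = vN (Vᴴ * V) := by
  rw [vN_eq_roots (isHermitian_mul_conjTranspose_self V),
    vN_eq_roots (isHermitian_conjTranspose_mul_self V)]
  have h := congrArg Polynomial.roots (charpoly_mul_comm' V Vᴴ)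
  rw [roots_mul (mul_ne_zero (pow_ne_zero _ X_ne_zero) (charpoly_monic _).ne_zero),
    roots_mul (mul_ne_zero (pow_ne_zero _ X_ne_zero) (charpoly_monic _).ne_zero),
    roots_X_pow, roots_X_pow] at h
  have := congrArg (fun s : Multiset ℂ => (s.map fun z => Real.negMulLog z.re).sum) h
  simpa [Multiset.map_nsmul, Multiset.sum_nsmul] using this

theorem vN_mul_conjTranspose_le (V : Matrix α β ℂ) :
    vN (V * Vᴴ) ≤ ∑ i, Real.negMulLog (∑ a, ‖V a i‖ ^ 2) := by
  rw [vN_gram]
  refine (vN_le_diag (posSemidef_conjTranspose_mul_self V) 1 (by simp) (by simp)).trans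
    (le_of_eq (sum_congr rfl fun i _ => ?_))
  rw [conjTranspose_one, Matrix.one_mul, Matrix.mul_one, mul_apply, Complex.re_sum]
  congr 1
  refine sum_congr rfl fun a _ => ?_
  rw [conjTranspose_apply, RCLike.star_def, mul_comm, Complex.mul_conj, Complex.ofReal_re,
    Complex.sq_norm]

end gram

/-- `∑ pᵢ |ψᵢ⟩⟨ψᵢ|` is a spectral decomposition of `ρ` -/
structure Decomp {ι : Type*} (ρ : Op n) (p : ι → ℝ)
    (ψ : ι → lp (fun _ : Fin n → ℕ => ℂ) 2) : Prop where
  nonneg : ∀ i, 0 ≤ p i
  sum_one : HasSum p 1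
  orth : Orthonormal ℂ ψ
  eq : ∀ a b, HasSum (fun i => (p i : ℂ) * ψ i a * conj (ψ i b)) (ρ a b)

/-- mass of `ψ` in a box -/
def boxMass (L : ℕ) (v : lp (fun _ : Fin n → ℕ => ℂ) 2) : ℝ :=
  ∑ k : Box n L, ‖v (occ k)‖ ^ 2

theorem hasSum_norm_sq (v : lp (fun _ : Fin n → ℕ => ℂ) 2) :
    HasSum (fun a => ‖v a‖ ^ 2) (‖v‖ ^ 2) := by
  simpa using lp.hasSum_norm (p := 2) (by norm_num) v

theorem boxMass_le (L : ℕ) {v : lp (fun _ : Fin n → ℕ => ℂ) 2} (hv : ‖v‖ = 1) :
    boxMass L v ≤ 1 := by
  classical
  have h := hasSum_norm_sq v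
  rw [hv, one_pow] at h
  have := h.summable.sum_le_tsum ((univ : Finset (Box n L)).image occ)
    (fun a _ => sq_nonneg _)
  rw [sum_image fun a _ b _ h => occ_injective h, h.tsum_eq] at this
  exact this

theorem tendsto_boxMass {v : lp (fun _ : Fin n → ℕ => ℂ) 2} (hv : ‖v‖ = 1) :
    Tendsto (fun L => boxMass L v) atTop (𝓝 1) := by
  have h := hasSum_norm_sq v
  rw [hv, one_pow] at h
  have := tendsto_sum_box _ h.summable
  rwa [h.tsum_eq] at this

variable {ι : Type*} {p : ι → ℝ} {ψ : ι → lp (fun _ : Fin n → ℕ => ℂ) 2}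

theorem Decomp.le_one (hd : Decomp ρ p ψ) (i : ι) : p i ≤ 1 :=
  le_hasSum hd.sum_one i fun j _ => hd.nonneg j

theorem Decomp.negMulLog_nonneg (hd : Decomp ρ p ψ) (i : ι) : 0 ≤ Real.negMulLog (p i) :=
  Real.negMulLog_nonneg (hd.nonneg i) (hd.le_one i)

theorem Decomp.lower (hd : Decomp ρ p ψ) (h : Pre ρ) (L : ℕ) (F : Finset ι) :
    ∑ i ∈ F, boxMass L (ψ i) * Real.negMulLog (p i) ≤ vN (compress L ρ) := by
  classical
  have hH := (h.psd L).isHermitian
  obtain ⟨U, hU1, hU2, hUd⟩ : ∃ U : Matrix (Box n L) (Box n L) ℂ, Uᴴ * U = 1 ∧ U * Uᴴ = 1 ∧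
      Uᴴ * compress L ρ * U = diagonal fun i => (hH.eigenvalues i : ℂ) :=
    ⟨_, eig_star_mul hH, eig_mul_star hH, eig_conj hH⟩
  -- overlaps
  set u : Box n L → ι → ℂ := fun j i => ∑ k, conj (U k j) * ψ i (occ k) with hu
  have hq : ∀ j, HasSum (fun i => Complex.normSq (u j i) * p i) (hH.eigenvalues j) := by
    intro j
    have h1 : HasSum (fun i => ∑ k, ∑ l, conj (U k j) *
        ((p i : ℂ) * ψ i (occ k) * conj (ψ i (occ l))) * U l j)
        (∑ k, ∑ l, conj (U k j) * ρ (occ k) (occ l) * U l j) :=
      hasSum_sum fun k _ => hasSum_sum fun l _ => ((hd.eq _ _).mul_left _).mul_right _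
    have h2 := Complex.hasSum_re h1
    have e1 : (∑ k, ∑ l, conj (U k j) * ρ (occ k) (occ l) * U l j).re = hH.eigenvalues j := by
      have := congrFun (congrFun hUd j) j
      rw [diagonal_apply_eq, mul_apply] at this
      simp only [mul_apply, conjTranspose_apply, RCLike.star_def, compress, of_apply,
        Finset.sum_mul] at this
      rw [sum_comm, this, Complex.ofReal_re]
      rfl
    rw [e1] at h2
    refine h2.congr_fun fun i => ?_
    have : ∑ k, ∑ l, conj (U k j) * ((p i : ℂ) * ψ i (occ k) * conj (ψ i (occ l))) * U l j =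
        ((p i * Complex.normSq (u j i) : ℝ) : ℂ) := by
      rw [Complex.ofReal_mul, ← Complex.mul_conj, hu]
      dsimp only
      rw [map_sum, Finset.sum_mul_sum, mul_sum]
      refine sum_congr rfl fun k _ => ?_
      rw [mul_sum]
      refine sum_congr rfl fun l _ => ?_
      rw [map_mul, Complex.conj_conj]
      ring
    rw [this, Complex.ofReal_re, mul_comm]
  have hbessel : ∀ j (G : Finset ι), ∑ i ∈ G, Complex.normSq (u j i) ≤ 1 := by
    intro j G
    set e : lp (fun _ : Fin n → ℕ => ℂ) 2 := ∑ k, lp.single 2 (occ k) (U k j) with he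
    have hi : ∀ v : lp (fun _ : Fin n → ℕ => ℂ) 2,
        inner ℂ e v = ∑ k, conj (U k j) * v (occ k) := fun v => by
      rw [he, sum_inner]
      refine sum_congr rfl fun k _ => ?_
      rw [lp.inner_single_left, RCLike.inner_apply, mul_comm]
    have hne : ‖e‖ ^ 2 = 1 := by
      rw [← inner_self_eq_norm_sq (𝕜 := ℂ), hi]
      have hev : ∀ k, e (occ k) = U k j := fun k => by
        rw [he, lp.coeFn_sum, Finset.sum_apply, Fintype.sum_eq_single k]
        · simp
        · intro x hx
          simp [occ_injective.eq_iff, Ne.symm hx]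
      simp only [hev]
      have := congrFun (congrFun hU1 j) j
      simp only [mul_apply, conjTranspose_apply, RCLike.star_def, one_apply_eq] at this
      simp [this]
    have := hd.orth.sum_inner_products_le e (s := G)
    rw [hne] at this
    refine le_trans (le_of_eq (sum_congr rfl fun i _ => ?_)) this
    rw [norm_inner_symm, hi, Complex.sq_norm]
  have hj : ∀ j, ∑ i ∈ F, Complex.normSq (u j i) * Real.negMulLog (p i) ≤
      Real.negMulLog (hH.eigenvalues j) := by
    intro j
    have ht : Tendsto (fun G : Finset ι => Real.negMulLog (∑ i ∈ G, Complex.normSq (u j i) * p i))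
        atTop (𝓝 (Real.negMulLog (hH.eigenvalues j))) :=
      (Real.continuous_negMulLog.tendsto _).comp (hq j)
    refine ge_of_tendsto ht ?_
    filter_upwards [eventually_ge_atTop F] with G hG
    refine le_trans (sum_le_sum_of_subset_of_nonneg hG fun i _ _ =>
      mul_nonneg (Complex.normSq_nonneg _) (hd.negMulLog_nonneg i)) ?_
    -- subnormalised Jensen
    have hJ := Real.concaveOn_negMulLog.le_map_sum
      (t := insertNone G)
      (w := fun o : Option ι => o.elim (1 - ∑ i ∈ G, Complex.normSq (u j i))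
        fun i => Complex.normSq (u j i))
      (p := fun o : Option ι => o.elim 0 p)
      (fun o _ => by
        cases o with
        | none => exact sub_nonneg.2 (hbessel j G)
        | some i => exact Complex.normSq_nonneg _)
      (by simp [Finset.sum_insertNone])
      (fun o _ => by
        cases o with
        | none => exact Set.self_mem_Ici
        | some i => exact Set.mem_Ici.2 (hd.nonneg i))
    simpa [Finset.sum_insertNone, smul_eq_mul, Real.negMulLog_zero] using hJ
  have hmass : ∀ i, ∑ j, Complex.normSq (u j i) = boxMass L (ψ i) := by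
    intro i
    have e : ∀ j, u j i = (Uᴴ *ᵥ fun k => ψ i (occ k)) j := fun j => rfl
    set v : Box n L → ℂ := fun k => ψ i (occ k)
    have h1 : star (Uᴴ *ᵥ v) ⬝ᵥ (Uᴴ *ᵥ v) = star v ⬝ᵥ v := by
      rw [star_mulVec, conjTranspose_conjTranspose, dotProduct_mulVec, vecMul_vecMul, hU2,
        vecMul_one]
    have h2 := congrArg Complex.re h1
    simp only [dotProduct, Pi.star_apply, RCLike.star_def, Complex.re_sum,
      ← Complex.normSq_eq_conj_mul_self, Complex.ofReal_re] at h2
    simp only [e, boxMass, Complex.sq_norm]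
    exact h2
  calc ∑ i ∈ F, boxMass L (ψ i) * Real.negMulLog (p i)
      = ∑ j, ∑ i ∈ F, Complex.normSq (u j i) * Real.negMulLog (p i) := by
        rw [sum_comm]
        exact sum_congr rfl fun i _ => by rw [← sum_mul, hmass]
    _ ≤ ∑ j, Real.negMulLog (hH.eigenvalues j) := sum_le_sum fun j _ => hj j
    _ = vN (compress L ρ) := (vN_eq_sum hH).symm

/-- the entropy limit is the Shannon entropy of the spectrum -/
theorem entropy_eq_tsum (h : Pre ρ) (hd : Decomp ρ p ψ) :
    Summable (fun i => Real.negMulLog (p i)) ∧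
      entropy ρ = ∑' i, Real.negMulLog (p i) := by
  classical
  have hF : ∀ F : Finset ι, ∑ i ∈ F, Real.negMulLog (p i) ≤ entropy ρ := fun F => by
    have ht : Tendsto (fun L => ∑ i ∈ F, boxMass L (ψ i) * Real.negMulLog (p i)) atTop
        (𝓝 (∑ i ∈ F, Real.negMulLog (p i))) :=
      tendsto_finsetSum _ fun i _ => by
        simpa using (tendsto_boxMass (hd.orth.norm_eq_one i)).mul_const (Real.negMulLog (p i))
    exact le_of_tendsto_of_tendsto' ht (tendsto_entropy h) fun L => hd.lower h L F
  have hs : Summable (fun i => Real.negMulLog (p i)) :=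
    summable_of_sum_le hd.negMulLog_nonneg hF
  refine ⟨hs, le_antisymm ?_ (hs.tsum_le_of_sum_le hF)⟩
  set w : ℕ → ι → ℝ := fun L i => boxMass L (ψ i)
  have hw0 : ∀ L i, 0 ≤ w L i := fun L i => sum_nonneg fun _ _ => sq_nonneg _
  have hw1 : ∀ L i, w L i ≤ 1 := fun L i => boxMass_le L (hd.orth.norm_eq_one i)
  have hfw : ∀ L i, 0 ≤ Real.negMulLog (w L i) ∧ Real.negMulLog (w L i) ≤ 1 := fun L i => by
    refine ⟨Real.negMulLog_nonneg (hw0 L i) (hw1 L i), ?_⟩
    have := negMulLog_le_klein (hw0 L i) one_pos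
    rw [Real.log_one, mul_zero, neg_zero, zero_add] at this
    linarith [hw0 L i]
  have hbound : ∀ L, vN (compress L ρ) ≤
      ∑' i, Real.negMulLog (p i) + ∑' i, p i * Real.negMulLog (w L i) := by
    intro L
    have hs2 : Summable fun i => p i * Real.negMulLog (w L i) :=
      hd.sum_one.summable.of_nonneg_of_le (fun i => mul_nonneg (hd.nonneg i) (hfw L i).1)
        fun i => mul_le_of_le_one_right (hd.nonneg i) (hfw L i).2
    set B : Finset ι → Matrix (Box n L) (Box n L) ℂ := fun G =>
      (Matrix.of fun (k : Box n L) (i : G) => (Real.sqrt (p i) : ℂ) * ψ i (occ k)) *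
        (Matrix.of fun (k : Box n L) (i : G) => (Real.sqrt (p i) : ℂ) * ψ i (occ k))ᴴ
    have hB : Tendsto B atTop (𝓝 (compress L ρ)) := by
      refine tendsto_pi_nhds.2 fun k => tendsto_pi_nhds.2 fun l => ?_
      refine (hd.eq (occ k) (occ l)).congr fun G => ?_
      simp only [B, mul_apply, conjTranspose_apply, of_apply, RCLike.star_def, map_mul,
        Complex.conj_ofReal]
      rw [← Finset.sum_coe_sort G]
      refine sum_congr rfl fun i _ => ?_
      have : ((Real.sqrt (p i) : ℂ)) * (Real.sqrt (p i) : ℂ) = (p i : ℂ) := by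
        rw [← Complex.ofReal_mul, Real.mul_self_sqrt (hd.nonneg i)]
      linear_combination -(ψ i (occ k) * conj (ψ i (occ l))) * this
    have hvl : Tendsto (fun G => vN (B G)) atTop (𝓝 (vN (compress L ρ))) :=
      (continuousOn_vN _ (h.psd L).isHermitian).tendsto.comp (tendsto_nhdsWithin_iff.2
        ⟨hB, Eventually.of_forall fun G => isHermitian_mul_conjTranspose_self _⟩)
    refine le_of_tendsto' hvl fun G => (vN_mul_conjTranspose_le _).trans ?_
    have hcol : ∀ i : G, ∑ k : Box n L, ‖(Matrix.of fun (k : Box n L) (i : G) =>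
        (Real.sqrt (p i) : ℂ) * ψ i (occ k)) k i‖ ^ 2 = p i * w L i := fun i => by
      simp only [of_apply, norm_mul, mul_pow, Complex.norm_real,
        Real.norm_of_nonneg (Real.sqrt_nonneg _), Real.sq_sqrt (hd.nonneg i.1), ← mul_sum]
      rfl
    simp only [hcol, Real.negMulLog_mul]
    rw [sum_add_distrib, Finset.sum_coe_sort G (fun i => w L i * Real.negMulLog (p i)),
      Finset.sum_coe_sort G (fun i => p i * Real.negMulLog (w L i))]
    exact add_le_add ((sum_le_sum fun i _ => mul_le_of_le_one_left (hd.negMulLog_nonneg i)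
        (hw1 L i)).trans (hs.sum_le_tsum G fun i _ => hd.negMulLog_nonneg i))
      (hs2.sum_le_tsum G fun i _ => mul_nonneg (hd.nonneg i) (hfw L i).1)
  have hz : Tendsto (fun L => ∑' i, p i * Real.negMulLog (w L i)) atTop (𝓝 0) := by
    have := tendsto_tsum_of_dominated_convergence (𝓕 := atTop)
      (f := fun L i => p i * Real.negMulLog (w L i)) (g := fun _ => (0:ℝ)) hd.sum_one.summable
      (fun i => by
        simpa using ((Real.continuous_negMulLog.tendsto 1).comp
          (tendsto_boxMass (hd.orth.norm_eq_one i))).const_mul (p i))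
      (Eventually.of_forall fun L i => by
        rw [Real.norm_of_nonneg (mul_nonneg (hd.nonneg i) (hfw L i).1)]
        exact mul_le_of_le_one_right (hd.nonneg i) (hfw L i).2)
    simpa using this
  refine le_of_tendsto_of_tendsto' (tendsto_entropy h) ?_ hbound
  simpa using tendsto_const_nhds.add hz

end

end Vale.Agent.P369.Fock
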