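import Vale.Agent.P369.Fock.Defs

/-!
P369: entries of the attenuator, trace preservation, positivity.
-/

namespace Vale.Agent.P369.Fock

noncomputable section

open Matrix Finset
open scoped ComplexConjugate ComplexOrder

variable {n K : ℕ}

/-- extension of a box matrix by zero to all occupation numbers -/
def ext (ρ : Matrix (Box n K) (Box n K) ℂ) (a b : Fin n → ℕ) : ℂ :=
  ∑ k, ∑ k', if occ k = a ∧ occ k' = b then ρ k k' else 0

theorem ext_occ (ρ : Matrix (Box n K) (Box n K) ℂ) (k k' : Box n K) :
    ext ρ (occ k) (occ k') = ρ k k' := by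
  rw [ext, Fintype.sum_eq_single k (fun x hx => by simp [occ_injective.eq_iff, hx]),
    Fintype.sum_eq_single k' (fun x hx => by simp [occ_injective.eq_iff, hx])]
  simp

theorem occ_le (k : Box n K) (j : Fin n) : occ k j ≤ K := Nat.lt_succ_iff.1 (k j).2

theorem ext_eq_zero_left (ρ : Matrix (Box n K) (Box n K) ℂ) {a b : Fin n → ℕ} {j : Fin n}
    (h : K < a j) : ext ρ a b = 0 := by
  refine sum_eq_zero fun k _ => sum_eq_zero fun k' _ => if_neg fun hk => ?_
  have := occ_le k j
  rw [hk.1] at this
  omega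

theorem exists_occ {a : Fin n → ℕ} (h : ∀ j, a j ≤ K) : ∃ k : Box n K, occ k = a :=
  ⟨fun j => ⟨a j, Nat.lt_succ_iff.2 (h j)⟩, rfl⟩

theorem kcoef_sq {η : ℝ} (h0 : 0 ≤ η) (h1 : η ≤ 1) (i m : Fin n → ℕ) :
    kcoef η i m ^ 2 = ∏ j, (Nat.choose (i j + m j) (m j) : ℝ) * η ^ i j * (1 - η) ^ m j := by
  rw [kcoef, ← prod_pow]
  refine prod_congr rfl fun j _ => Real.sq_sqrt ?_
  have : (0:ℝ) ≤ 1 - η := by linarith
  positivity

theorem kraus_apply_conj (η : ℝ) (m i k : Box n K) :
    (starRingEnd ℂ) (kraus η m i k) = kraus η m i k := by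
  unfold kraus
  split <;> simp

theorem att_apply (η : ℝ) (ρ : Matrix (Box n K) (Box n K) ℂ) (i i' : Box n K) :
    att η ρ i i' = ∑ m : Box n K, (kcoef η (occ i) (occ m) * kcoef η (occ i') (occ m) : ℝ) *
      ext ρ (occ i + occ m) (occ i' + occ m) := by
  simp only [att, Matrix.sum_apply]
  refine sum_congr rfl fun m _ => ?_
  simp only [mul_apply, conjTranspose_apply, RCLike.star_def, kraus_apply_conj, ext, Finset.mul_sum,
    Finset.sum_mul]
  rw [sum_comm]
  refine sum_congr rfl fun k _ => sum_congr rfl fun k' _ => ?_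
  simp only [kraus]
  split_ifs <;> first | (push_cast; ring1) | simp_all

theorem kraus_completeness {η : ℝ} (h0 : 0 ≤ η) (h1 : η ≤ 1) :
    ∑ m : Box n K, (kraus η m)ᴴ * kraus η m = 1 := by
  have hbin : ∀ N : ℕ, N ≤ K → ∑ m : Fin (K + 1), (if (m : ℕ) ≤ N then
      (N.choose m : ℝ) * η ^ (N - (m : ℕ)) * (1 - η) ^ (m : ℕ) else 0) = 1 := by
    intro N hN
    rw [Fin.sum_univ_eq_sum_range (fun m => if m ≤ N then
      (N.choose m : ℝ) * η ^ (N - m) * (1 - η) ^ m else 0)]
    rw [← sum_filter, show (range (K + 1)).filter (· ≤ N) = range (N + 1) by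
      ext m; simp only [mem_filter, mem_range]; omega]
    have := add_pow (1 - η) η N
    rw [sub_add_cancel, one_pow] at this
    exact (sum_congr rfl fun m _ => by ring).trans this.symm
  ext k k'
  simp only [Matrix.sum_apply, mul_apply, conjTranspose_apply, RCLike.star_def, kraus_apply_conj]
  by_cases hk : k = k'
  · subst hk
    rw [one_apply_eq]
    have hm : ∀ m : Box n K, (∑ i, kraus η m i k * kraus η m i k : ℂ) =
        ((∏ j, if (m j : ℕ) ≤ occ k j then ((occ k j).choose (m j) : ℝ) *
          η ^ (occ k j - (m j : ℕ)) * (1 - η) ^ (m j : ℕ) else 0 : ℝ) : ℂ) := by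
      intro m
      by_cases hle : ∀ j, (m j : ℕ) ≤ occ k j
      · obtain ⟨i, hi⟩ := exists_occ (K := K) (a := fun j => occ k j - (m j : ℕ))
          (fun j => (Nat.sub_le _ _).trans (occ_le k j))
        have hsum : occ k = occ i + occ m := funext fun j => by
          simp only [Pi.add_apply, hi, occ]
          have := hle j
          simp only [occ] at this
          omega
        rw [Fintype.sum_eq_single i]
        · simp only [kraus, if_pos hsum]
          rw [← Complex.ofReal_mul, ← sq, kcoef_sq h0 h1]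
          congr 1
          refine prod_congr rfl fun j _ => ?_
          have e : occ i j + occ m j = occ k j := (congrFun hsum j).symm
          rw [if_pos (hle j), e, hi]
          rfl
        · intro x hx
          rw [kraus, if_neg, zero_mul]
          intro hxk
          exact hx (occ_injective (add_right_cancel (hxk.symm.trans hsum)))
      · push Not at hle
        obtain ⟨j, hj⟩ := hle
        rw [prod_eq_zero (mem_univ j) (if_neg (not_le.2 hj)), Complex.ofReal_zero]
        refine sum_eq_zero fun i _ => ?_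
        rw [kraus, if_neg, zero_mul]
        intro hh
        have := congrFun hh j
        simp only [Pi.add_apply, occ] at this hj
        omega
    rw [sum_congr rfl fun m _ => hm m, ← Complex.ofReal_sum]
    norm_cast
    rw [← Fintype.prod_sum (fun j (x : Fin (K + 1)) => if (x : ℕ) ≤ occ k j then
      ((occ k j).choose x : ℝ) * η ^ (occ k j - (x : ℕ)) * (1 - η) ^ (x : ℕ) else 0)]
    exact prod_eq_one fun j _ => hbin _ (occ_le k j)
  · rw [one_apply_ne hk]
    refine sum_eq_zero fun m _ => sum_eq_zero fun i _ => ?_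
    simp only [kraus]
    split_ifs with a b <;> try simp
    exact (hk (occ_injective (a.trans b.symm))).elim

theorem trace_att {η : ℝ} (h0 : 0 ≤ η) (h1 : η ≤ 1) (ρ : Matrix (Box n K) (Box n K) ℂ) :
    (att η ρ).trace = ρ.trace := by
  rw [att, trace_sum]
  rw [sum_congr rfl fun m (_ : m ∈ univ) => trace_mul_cycle (kraus η m) ρ (kraus η m)ᴴ]
  rw [← trace_sum, ← Finset.sum_mul, kraus_completeness h0 h1, one_mul]

theorem posSemidef_att (η : ℝ) {ρ : Matrix (Box n K) (Box n K) ℂ} (h : ρ.PosSemidef) :
    (att η ρ).PosSemidef :=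
  posSemidef_sum _ fun m _ => h.mul_mul_conjTranspose_same (kraus η m)

theorem kraus_zero (η : ℝ) :
    kraus η (fun _ => 0 : Box n K) = diagonal fun i => (kcoef η (occ i) 0 : ℂ) := by
  ext i k
  have h0 : occ (fun _ => 0 : Box n K) = 0 := rfl
  simp only [kraus, h0, add_zero, occ_injective.eq_iff, diagonal_apply]
  simp [eq_comm]

theorem kcoef_zero_pos {η : ℝ} (h : 0 < η) (i : Fin n → ℕ) : 0 < kcoef η i 0 :=
  prod_pos fun j _ => Real.sqrt_pos.2 (by simp [pow_pos h])

/-- full rank is preserved for positive transmissivity -/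
theorem posDef_att {η : ℝ} (h : 0 < η) {ρ : Matrix (Box n K) (Box n K) ℂ} (hρ : ρ.PosDef) :
    (att η ρ).PosDef := by
  rw [att, ← Finset.add_sum_erase univ _ (mem_univ (fun _ => 0 : Box n K))]
  refine PosDef.add_posSemidef ?_
    (posSemidef_sum _ fun m _ => hρ.posSemidef.mul_mul_conjTranspose_same (kraus η m))
  refine hρ.mul_mul_conjTranspose_same ?_
  rw [kraus_zero]
  intro x y hxy
  funext i
  have := congrFun hxy i
  simp only [vecMul_diagonal] at this
  exact mul_right_cancel₀ (Complex.ofReal_ne_zero.2 (kcoef_zero_pos h _).ne') this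

end

end Vale.Agent.P369.Fock
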