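import Vale.Agent.P369.Fock.Att

/-!
P369: the attenuator is the beam-splitter output with the vacuum.

The `2n`-mode Fock space is written as polynomials in the creation operators
`a_j^† = X (inl j)`, `b_j^† = X (inr j)` acting on the vacuum `1`, so the normalised basis vector
`|i, m⟩` is the monomial divided by `√(i! m!)`. As `U` fixes the vacuum and
`U a_j^† U^† = √η a_j^† - √(1-η) b_j^†`, the image of `|k, 0⟩` is `bsPoly η k`.
-/

namespace Vale.Agent.P369.Fock

noncomputable section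

open Finset MvPolynomial
open scoped ComplexConjugate

variable {n K : ℕ}

/-- `U |k, 0⟩` -/
def bsPoly (η : ℝ) (k : Fin n → ℕ) : MvPolynomial (Fin n ⊕ Fin n) ℂ :=
  C ((Real.sqrt (∏ j, ((k j).factorial : ℝ)))⁻¹ : ℂ) *
    ∏ j, (C (Real.sqrt η : ℂ) * X (Sum.inl j) - C (Real.sqrt (1 - η) : ℂ) * X (Sum.inr j)) ^ k j

/-- amplitude of `|i, m⟩` in `U |k, 0⟩` -/
def bsAmp (η : ℝ) (k i m : Fin n → ℕ) : ℂ :=
  coeff (Finsupp.equivFunOnFinite.symm (Sum.elim i m)) (bsPoly η k) *
    (Real.sqrt ((∏ j, ((i j).factorial : ℝ)) * ∏ j, ((m j).factorial : ℝ)) : ℂ)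

/-- partial trace over the `b`-modes of `U (ρ ⊗ vacuum) U^†` -/
def bsOut (η : ℝ) (ρ : Matrix (Box n K) (Box n K) ℂ) : Matrix (Box n K) (Box n K) ℂ :=
  fun i i' => ∑ m : Box n K, ∑ k : Box n K, ∑ k' : Box n K,
    bsAmp η (occ k) (occ i) (occ m) * ρ k k' * conj (bsAmp η (occ k') (occ i') (occ m))

theorem monomial_sum_prod {σ : Type*} {κ : Type*} (s : Finset κ) (d : κ → σ →₀ ℕ) (c : κ → ℂ) :
    ∏ j ∈ s, monomial (d j) (c j) = monomial (∑ j ∈ s, d j) (∏ j ∈ s, c j) := by
  classical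
  induction s using Finset.induction_on with
  | empty => simp
  | insert a s ha ih => rw [prod_insert ha, sum_insert ha, prod_insert ha, ih, monomial_mul]

theorem coeff_prod_binom (α β : ℂ) (k i m : Fin n → ℕ) :
    coeff (Finsupp.equivFunOnFinite.symm (Sum.elim i m))
      (∏ j, (C α * X (Sum.inl j) + C β * X (Sum.inr j)) ^ k j :
        MvPolynomial (Fin n ⊕ Fin n) ℂ) =
      if k = i + m then ∏ j, ((k j).choose (m j) : ℂ) * α ^ i j * β ^ m j else 0 := by
  classical
  have hterm : ∀ j, (C α * X (Sum.inl j) + C β * X (Sum.inr j) :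
      MvPolynomial (Fin n ⊕ Fin n) ℂ) ^ k j =
      ∑ x ∈ range (k j + 1), monomial (Finsupp.single (Sum.inl j : Fin n ⊕ Fin n) (k j - x) +
        Finsupp.single (Sum.inr j) x) (((k j).choose x : ℂ) * α ^ (k j - x) * β ^ x) := by
    intro j
    rw [add_comm, add_pow]
    refine sum_congr rfl fun x _ => ?_
    rw [monomial_add_single, mul_pow, mul_pow, ← C_mul_X_pow_eq_monomial, C_mul, C_mul,
      ← C_pow, ← C_pow, ← C_eq_coe_nat]
    ring
  rw [prod_congr rfl fun j _ => hterm j, prod_univ_sum]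
  simp only [monomial_sum_prod, coeff_sum, coeff_monomial]
  have heval : ∀ x : Fin n → ℕ,
      (∑ j, (Finsupp.single (Sum.inl j : Fin n ⊕ Fin n) (k j - x j) + Finsupp.single (Sum.inr j) (x j))) =
        Finsupp.equivFunOnFinite.symm (Sum.elim (fun j => k j - x j) x) := by
    intro x
    ext a
    cases a with
    | inl l =>
      rw [Finsupp.finsetSum_apply, Fintype.sum_eq_single l]
      · simp
      · intro b hb; simp [hb]
    | inr l =>
      rw [Finsupp.finsetSum_apply, Fintype.sum_eq_single l]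
      · simp
      · intro b hb; simp [hb]
  simp only [heval, EmbeddingLike.apply_eq_iff_eq]
  by_cases hk : k = i + m
  · rw [if_pos hk, sum_eq_single m]
    · rw [if_pos (by simp [hk])]
      refine prod_congr rfl fun j _ => ?_
      simp [hk]
    · intro x _ hx
      exact if_neg fun h => hx (by
        have := congrArg (fun f => f ∘ Sum.inr) h
        simpa using this)
    · intro h
      exact absurd (Fintype.mem_piFinset.2 fun j => mem_range.2 (by
        simp [hk])) h
  · rw [if_neg hk]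
    refine sum_eq_zero fun x hx => if_neg fun h => hk ?_
    funext j
    have h1 := congrFun h (Sum.inl j)
    have h2 := congrFun h (Sum.inr j)
    have h3 := mem_range.1 (Fintype.mem_piFinset.1 hx j)
    simp only [Sum.elim_inl, Sum.elim_inr] at h1 h2
    simp only [Pi.add_apply]
    omega

theorem bsAmp_eq {η : ℝ} (h0 : 0 ≤ η) (h1 : η ≤ 1) (k i m : Fin n → ℕ) :
    bsAmp η k i m = if k = i + m then ((-1 : ℝ) ^ (∑ j, m j) * kcoef η i m : ℝ) else 0 := by
  have hpoly : bsPoly η k = C ((Real.sqrt (∏ j, ((k j).factorial : ℝ)))⁻¹ : ℂ) *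
      ∏ j, (C (Real.sqrt η : ℂ) * X (Sum.inl j) +
        C (-(Real.sqrt (1 - η)) : ℂ) * X (Sum.inr j)) ^ k j := by
    simp only [bsPoly, map_neg, neg_mul, sub_eq_add_neg]
  rw [bsAmp, hpoly, coeff_C_mul, coeff_prod_binom]
  by_cases hk : k = i + m
  swap
  · simp [hk]
  rw [if_pos hk, if_pos hk]
  subst hk
  have hreal : (Real.sqrt (∏ j, (((i + m) j).factorial : ℝ)))⁻¹ *
      (∏ j, (((i + m) j).choose (m j) : ℝ) * Real.sqrt η ^ i j * (-Real.sqrt (1 - η)) ^ m j) *
      Real.sqrt ((∏ j, ((i j).factorial : ℝ)) * ∏ j, ((m j).factorial : ℝ)) =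
      (-1) ^ (∑ j, m j) * kcoef η i m := by
    rw [Real.sqrt_prod _ (fun j _ => Nat.cast_nonneg _), ← prod_inv_distrib,
      ← prod_mul_distrib, ← prod_mul_distrib, Real.sqrt_prod _ (fun j _ => by positivity),
      ← prod_mul_distrib, kcoef, ← prod_pow_eq_pow_sum, ← prod_mul_distrib]
    refine prod_congr rfl fun j _ => ?_
    simp only [Pi.add_apply]
    have hf : ((i j + m j).factorial : ℝ) =
        ((i j + m j).choose (m j) : ℝ) * ((i j).factorial * (m j).factorial) := by
      rw [← Nat.add_choose_mul_factorial_mul_factorial (i j) (m j)]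
      push_cast; ring
    rw [neg_eq_neg_one_mul (Real.sqrt (1 - η)), mul_pow (-1 : ℝ)]
    have hc : (0:ℝ) < ((i j + m j).choose (m j) : ℝ) := by
      exact_mod_cast Nat.choose_pos (Nat.le_add_left _ _)
    have hfp : (0:ℝ) < ((i j).factorial : ℝ) * (m j).factorial := by
      have := Nat.factorial_pos (i j); have := Nat.factorial_pos (m j); positivity
    have hv : (0:ℝ) ≤ 1 - η := by linarith
    rw [hf, Real.sqrt_mul hc.le, Real.sqrt_mul (by positivity) (((1 - η)) ^ m j),
      Real.sqrt_mul hc.le]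
    have e1 : Real.sqrt (η ^ i j) = Real.sqrt η ^ i j := by
      refine (Real.sqrt_eq_iff_eq_sq (by positivity) (by positivity)).2 ?_
      rw [← pow_mul, mul_comm, pow_mul, Real.sq_sqrt h0]
    have e2 : Real.sqrt ((1 - η) ^ m j) = Real.sqrt (1 - η) ^ m j := by
      refine (Real.sqrt_eq_iff_eq_sq (by positivity) (by positivity)).2 ?_
      rw [← pow_mul, mul_comm, pow_mul, Real.sq_sqrt hv]
    rw [e1, e2]
    have hs := (Real.sqrt_pos.2 hc).ne'
    have hsf := (Real.sqrt_pos.2 hfp).ne'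
    field_simp
    rw [Real.sq_sqrt hc.le]
  rw [← hreal]
  push_cast
  ring

/-- the attenuator is the beam-splitter output with the vacuum -/
theorem bsOut_eq_att {η : ℝ} (h0 : 0 ≤ η) (h1 : η ≤ 1) (ρ : Matrix (Box n K) (Box n K) ℂ) :
    bsOut η ρ = att η ρ := by
  ext i i'
  rw [att_apply, bsOut]
  refine sum_congr rfl fun m _ => ?_
  rw [ext, mul_sum]
  refine sum_congr rfl fun k _ => ?_
  rw [mul_sum]
  refine sum_congr rfl fun k' _ => ?_
  rw [bsAmp_eq h0 h1, bsAmp_eq h0 h1]
  by_cases hk : occ k = occ i + occ m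
  swap
  · simp [hk]
  by_cases hk' : occ k' = occ i' + occ m
  swap
  · simp [hk']
  rw [if_pos hk, if_pos hk', if_pos ⟨hk, hk'⟩, Complex.conj_ofReal]
  have hs : ((-1 : ℂ) ^ (∑ j, occ m j)) * (-1) ^ (∑ j, occ m j) = 1 := by
    rw [← mul_pow]; simp
  push_cast
  linear_combination ((kcoef η (occ i) (occ m) : ℂ) * ρ k k' * (kcoef η (occ i') (occ m) : ℂ)) * hs

end

end Vale.Agent.P369.Fock
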