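import Mathlib

/-!
P369: truncated n-mode Fock space (per-mode cutoff K), annihilators, attenuator Kraus form,
loss generator.
-/

namespace Vale.Agent.P369.Fock

noncomputable section

open Matrix Finset
open scoped ComplexConjugate

variable {n K : ℕ}

/-- occupation numbers of `n` modes, each at most `K` -/
abbrev Box (n K : ℕ) := Fin n → Fin (K + 1)

/-- occupation numbers as naturals -/
def occ (k : Box n K) : Fin n → ℕ := fun j => (k j : ℕ)

theorem occ_injective : Function.Injective (occ (n := n) (K := K)) :=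
  fun _ _ h => funext fun j => Fin.ext (congrFun h j)

/-- total photon number -/
def deg (k : Box n K) : ℕ := ∑ j, occ k j

/-- annihilator of mode `j` -/
def ann (j : Fin n) : Matrix (Box n K) (Box n K) ℂ :=
  fun i k => if occ k = occ i + Pi.single j 1 then (Real.sqrt (occ k j) : ℂ) else 0

/-- number operator of mode `j` -/
def num (j : Fin n) : Matrix (Box n K) (Box n K) ℂ := diagonal fun k => (occ k j : ℂ)

/-- coefficient of the attenuator losing `m` photons, arriving at occupation `i` -/
def kcoef (η : ℝ) (i m : Fin n → ℕ) : ℝ :=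
  ∏ j, Real.sqrt ((Nat.choose (i j + m j) (m j) : ℝ) * η ^ i j * (1 - η) ^ m j)

/-- Kraus operator of the attenuator: `m` photons lost -/
def kraus (η : ℝ) (m : Box n K) : Matrix (Box n K) (Box n K) ℂ :=
  fun i k => if occ k = occ i + occ m then (kcoef η (occ i) (occ m) : ℂ) else 0

/-- attenuator of transmissivity `η` on the box -/
def att (η : ℝ) (ρ : Matrix (Box n K) (Box n K) ℂ) : Matrix (Box n K) (Box n K) ℂ :=
  ∑ m, kraus η m * ρ * (kraus η m)ᴴ

/-- loss generator -/
def lossGen (ρ : Matrix (Box n K) (Box n K) ℂ) : Matrix (Box n K) (Box n K) ℂ :=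
  ∑ j, (ann j * ρ * (ann j)ᴴ - (2 : ℂ)⁻¹ • (num j * ρ + ρ * num j))

/-- entropy `-Tr M log M` of a Hermitian matrix -/
def vN {ι : Type*} [Fintype ι] [DecidableEq ι] (M : Matrix ι ι ℂ) : ℝ :=
  (cfc Real.negMulLog M).trace.re

end

end Vale.Agent.P369.Fock
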