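import Vale.Agent.P369.Fock.Defs

/-!
P369: entropy of finite matrices: Klein inequality, continuity, derivative along a curve.
-/

namespace Vale.Agent.P369.Fock

noncomputable section

open Matrix Finset Filter
open scoped ComplexConjugate ComplexOrder Matrix.Norms.L2Operator Topology

variable {ι : Type*} [Fintype ι] [DecidableEq ι]

theorem eig_star_mul {A : Matrix ι ι ℂ} (hA : A.IsHermitian) :
    (hA.eigenvectorUnitary : Matrix ι ι ℂ)ᴴ * (hA.eigenvectorUnitary : Matrix ι ι ℂ) = 1 :=
  Unitary.coe_star_mul_self _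

theorem eig_mul_star {A : Matrix ι ι ℂ} (hA : A.IsHermitian) :
    (hA.eigenvectorUnitary : Matrix ι ι ℂ) * (hA.eigenvectorUnitary : Matrix ι ι ℂ)ᴴ = 1 :=
  Unitary.coe_mul_star_self _

theorem trace_mul_cfc (X : Matrix ι ι ℂ) {B : Matrix ι ι ℂ} (hB : B.IsHermitian) (g : ℝ → ℝ) :
    (X * cfc g B).trace = ∑ j, (g (hB.eigenvalues j) : ℂ) *
      ((hB.eigenvectorUnitary : Matrix ι ι ℂ)ᴴ * X * hB.eigenvectorUnitary) j j := by
  rw [hB.cfc_eq, IsHermitian.cfc, Unitary.conjStarAlgAut_apply, star_eq_conjTranspose,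
    ← mul_assoc, ← mul_assoc, trace_mul_comm, ← mul_assoc, ← mul_assoc, trace]
  simp only [Matrix.diag_apply, mul_diagonal]
  exact sum_congr rfl fun j _ => mul_comm _ _

theorem vN_eq_sum {A : Matrix ι ι ℂ} (hA : A.IsHermitian) :
    vN A = ∑ i, Real.negMulLog (hA.eigenvalues i) := by
  have := trace_mul_cfc 1 hA Real.negMulLog
  rw [one_mul, mul_one, eig_star_mul] at this
  rw [vN, this, Complex.re_sum]
  simp

theorem trace_re_eq_sum {A : Matrix ι ι ℂ} (hA : A.IsHermitian) :
    A.trace.re = ∑ i, hA.eigenvalues i := by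
  rw [hA.trace_eq_sum_eigenvalues, Complex.re_sum]
  simp

theorem negMulLog_le_klein {a b : ℝ} (ha : 0 ≤ a) (hb : 0 < b) :
    Real.negMulLog a ≤ -(a * Real.log b) + b - a := by
  rcases ha.eq_or_lt with rfl | ha'
  · simp [hb.le]
  have := mul_le_mul_of_nonneg_left (Real.log_le_sub_one_of_pos (div_pos hb ha')) ha
  rw [Real.log_div hb.ne' ha'.ne', mul_sub, mul_sub, mul_one, mul_div_cancel₀ _ ha'.ne'] at this
  simp only [Real.negMulLog, neg_mul]
  linarith

/-- squared overlaps of two eigenbases -/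
def overlap {A B : Matrix ι ι ℂ} (hA : A.IsHermitian) (hB : B.IsHermitian) (i j : ι) : ℝ :=
  Complex.normSq (((hA.eigenvectorUnitary : Matrix ι ι ℂ)ᴴ * hB.eigenvectorUnitary) i j)

theorem overlap_sum_right {A B : Matrix ι ι ℂ} (hA : A.IsHermitian) (hB : B.IsHermitian) (i : ι) :
    ∑ j, overlap hA hB i j = 1 := by
  set U := (hA.eigenvectorUnitary : Matrix ι ι ℂ)
  set V := (hB.eigenvectorUnitary : Matrix ι ι ℂ)
  have h : (Uᴴ * V) * (Uᴴ * V)ᴴ = 1 := by
    rw [conjTranspose_mul, conjTranspose_conjTranspose, mul_assoc, ← mul_assoc V,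
      eig_mul_star, one_mul, eig_star_mul]
  have e : ∀ j, overlap hA hB i j = Complex.normSq ((Uᴴ * V) i j) := fun j => rfl
  simp only [e]
  generalize Uᴴ * V = W at h ⊢
  have := congrArg (fun M : Matrix ι ι ℂ => (M i i).re) h
  simp only [mul_apply, conjTranspose_apply, RCLike.star_def, Complex.mul_conj, Complex.re_sum,
    Complex.ofReal_re, one_apply_eq, Complex.one_re] at this
  exact this

theorem overlap_sum_left {A B : Matrix ι ι ℂ} (hA : A.IsHermitian) (hB : B.IsHermitian) (j : ι) :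
    ∑ i, overlap hA hB i j = 1 := by
  rw [← overlap_sum_right hB hA j]
  refine sum_congr rfl fun i _ => ?_
  rw [overlap, overlap, ← Complex.normSq_conj, ← RCLike.star_def, ← conjTranspose_apply,
    conjTranspose_mul, conjTranspose_conjTranspose]

theorem trace_mul_cfc_re {A B : Matrix ι ι ℂ} (hA : A.IsHermitian) (hB : B.IsHermitian)
    (g : ℝ → ℝ) :
    (A * cfc g B).trace.re =
      ∑ i, ∑ j, hA.eigenvalues i * g (hB.eigenvalues j) * overlap hA hB i j := by
  rw [trace_mul_cfc A hB g, Complex.re_sum, sum_comm]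
  refine sum_congr rfl fun j _ => ?_
  set U := (hA.eigenvectorUnitary : Matrix ι ι ℂ) with hU
  set V := (hB.eigenvectorUnitary : Matrix ι ι ℂ) with hV
  have e : Vᴴ * A * V = (Uᴴ * V)ᴴ * diagonal (RCLike.ofReal ∘ hA.eigenvalues) * (Uᴴ * V) := by
    conv_lhs => rw [hA.spectral_theorem, Unitary.conjStarAlgAut_apply, star_eq_conjTranspose]
    rw [conjTranspose_mul, conjTranspose_conjTranspose]
    simp only [mul_assoc, hU, hV]
  rw [e, mul_apply, mul_sum, Complex.re_sum]
  refine sum_congr rfl fun i _ => ?_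
  rw [mul_diagonal, conjTranspose_apply, overlap, RCLike.star_def]
  simp only [Function.comp_apply]
  rw [mul_right_comm ((starRingEnd ℂ) _) _ _, ← Complex.normSq_eq_conj_mul_self]
  rw [← hU, ← hV]
  simp only [RCLike.ofReal_alg, Complex.real_smul, mul_one, ← Complex.ofReal_mul, Complex.ofReal_re]
  ring

/-- Klein's inequality -/
theorem klein {A B : Matrix ι ι ℂ} (hA : A.PosSemidef) (hB : B.PosDef) :
    vN A ≤ -(A * CFC.log B).trace.re + B.trace.re - A.trace.re := by
  have ha := hA.isHermitian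
  have hb := hB.isHermitian
  rw [vN_eq_sum ha, CFC.log, trace_mul_cfc_re ha hb, trace_re_eq_sum ha, trace_re_eq_sum hb]
  calc ∑ i, Real.negMulLog (ha.eigenvalues i)
      = ∑ i, ∑ j, Real.negMulLog (ha.eigenvalues i) * overlap ha hb i j := by
        simp [← mul_sum, overlap_sum_right]
    _ ≤ ∑ i, ∑ j, (-(ha.eigenvalues i * Real.log (hb.eigenvalues j)) + hb.eigenvalues j
          - ha.eigenvalues i) * overlap ha hb i j :=
        sum_le_sum fun i _ => sum_le_sum fun j _ => mul_le_mul_of_nonneg_right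
          (negMulLog_le_klein (hA.eigenvalues_nonneg i) (hB.eigenvalues_pos j))
          (Complex.normSq_nonneg _)
    _ = _ := by
        simp only [sub_mul, add_mul, neg_mul, sum_sub_distrib, sum_add_distrib, sum_neg_distrib]
        rw [sum_comm (f := fun i j => hb.eigenvalues j * overlap ha hb i j)]
        simp [← mul_sum, overlap_sum_right, overlap_sum_left]

theorem vN_eq_trace_log {B : Matrix ι ι ℂ} (hB : B.IsHermitian) :
    vN B = -(B * CFC.log B).trace.re := by
  rw [vN_eq_sum hB, CFC.log, trace_mul_cfc B hB, Complex.re_sum, ← sum_neg_distrib]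
  refine sum_congr rfl fun j _ => ?_
  have : ((hB.eigenvectorUnitary : Matrix ι ι ℂ))ᴴ * B * (hB.eigenvectorUnitary : Matrix ι ι ℂ) =
      diagonal (RCLike.ofReal ∘ hB.eigenvalues) := by
    simpa [Unitary.conjStarAlgAut_apply, star_eq_conjTranspose] using
      hB.conjStarAlgAut_star_eigenvectorUnitary
  rw [this, diagonal_apply_eq]
  simp [Real.negMulLog, mul_comm]

theorem vN_sub_le {A B : Matrix ι ι ℂ} (hA : A.PosSemidef) (hB : B.PosDef)
    (htr : A.trace = B.trace) :
    vN A - vN B ≤ -((A - B) * CFC.log B).trace.re := by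
  have := klein hA hB
  rw [htr] at this
  rw [vN_eq_trace_log hB.isHermitian, sub_mul, trace_sub, Complex.sub_re]
  linarith

theorem continuousOn_vN : ContinuousOn (vN (ι := ι)) {A | A.IsHermitian} := by
  have h : ContinuousOn (fun A : Matrix ι ι ℂ => cfc Real.negMulLog A) {A | A.IsHermitian} :=
    continuousOn_id.cfc_of_mem_nhdsSet _ (s := Set.univ)
      univ_mem (fun A hA => hA.isSelfAdjoint) Real.continuous_negMulLog.continuousOn
  exact (Complex.continuous_re.comp continuous_id.matrix_trace).comp_continuousOn h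

theorem continuousOn_log_posDef :
    ContinuousOn (CFC.log : Matrix ι ι ℂ → Matrix ι ι ℂ) {A | A.PosDef} :=
  CFC.continuousOn_log.mono fun _ hA => ⟨hA.isHermitian.isSelfAdjoint, hA.isUnit⟩

theorem tendsto_neg_trace_mul {α : Type*} {l : Filter α} {X Y : α → Matrix ι ι ℂ}
    {a b : Matrix ι ι ℂ} (hX : Tendsto X l (𝓝 a)) (hY : Tendsto Y l (𝓝 b)) :
    Tendsto (fun s => -(X s * Y s).trace.re) l (𝓝 (-(a * b).trace.re)) :=
  ((Complex.continuous_re.comp continuous_id.matrix_trace).neg.tendsto (a * b)).comp (hX.mul hY)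

theorem slope_between {B C : Matrix ι ι ℂ} (hB : B.PosDef) (hC : C.PosDef)
    (htr : C.trace = B.trace) (c : ℝ) :
    min (-((c • (C - B)) * CFC.log C).trace.re) (-((c • (C - B)) * CFC.log B).trace.re)
        ≤ c * (vN C - vN B) ∧
      c * (vN C - vN B) ≤
        max (-((c • (C - B)) * CFC.log C).trace.re) (-((c • (C - B)) * CFC.log B).trace.re) := by
  have h1 := vN_sub_le hC.posSemidef hB htr
  have h2 := vN_sub_le hB.posSemidef hC htr.symm
  have hneg : ((B - C) * CFC.log C).trace.re = -((C - B) * CFC.log C).trace.re := by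
    rw [← neg_sub C B, Matrix.neg_mul, trace_neg, Complex.neg_re]
  rw [hneg, neg_neg] at h2
  have hs : ∀ Y : Matrix ι ι ℂ, -((c • (C - B)) * Y).trace.re = c * -((C - B) * Y).trace.re := by
    intro Y
    rw [Matrix.smul_mul, trace_smul, Complex.smul_re, smul_eq_mul]
    ring
  rw [hs, hs]
  have h2' : -((C - B) * CFC.log C).trace.re ≤ vN C - vN B := by linarith
  rcases le_total 0 c with hc | hc
  · exact ⟨(min_le_left _ _).trans (mul_le_mul_of_nonneg_left h2' hc),
      (mul_le_mul_of_nonneg_left h1 hc).trans (le_max_right _ _)⟩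
  · exact ⟨(min_le_right _ _).trans (mul_le_mul_of_nonpos_left h1 hc),
      (mul_le_mul_of_nonpos_left h2' hc).trans (le_max_left _ _)⟩

/-- derivative of the entropy along a curve of full-rank matrices of constant trace -/
theorem hasDerivAt_vN {A : ℝ → Matrix ι ι ℂ} {A' : Matrix ι ι ℂ} {t : ℝ}
    (hpd : ∀ᶠ s in 𝓝 t, (A s).PosDef) (htr : ∀ᶠ s in 𝓝 t, (A s).trace = (A t).trace)
    (hd : HasDerivAt A A' t) :
    HasDerivAt (fun s => vN (A s)) (-(A' * CFC.log (A t)).trace.re) t := by
  rw [hasDerivAt_iff_tendsto_slope]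
  have hsl : Tendsto (slope A t) (𝓝[≠] t) (𝓝 A') := hasDerivAt_iff_tendsto_slope.1 hd
  have hpt : (A t).PosDef := hpd.self_of_nhds
  have hlog : Tendsto (fun s => CFC.log (A s)) (𝓝[≠] t) (𝓝 (CFC.log (A t))) :=
    (continuousOn_log_posDef (A t) hpt).tendsto.comp
      (tendsto_nhdsWithin_iff.2 ⟨hd.continuousAt.tendsto.mono_left nhdsWithin_le_nhds,
        hpd.filter_mono nhdsWithin_le_nhds⟩)
  have hu := tendsto_neg_trace_mul hsl (tendsto_const_nhds (x := CFC.log (A t)))
  have hl := tendsto_neg_trace_mul hsl hlog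
  have hmin := hl.min hu
  have hmax := hl.max hu
  rw [min_self] at hmin
  rw [max_self] at hmax
  refine tendsto_of_tendsto_of_tendsto_of_le_of_le' hmin hmax ?_ ?_
  · filter_upwards [hpd.filter_mono nhdsWithin_le_nhds, htr.filter_mono nhdsWithin_le_nhds]
      with s h1 h2
    simp only [slope_def_module, smul_eq_mul]
    exact (slope_between hpt h1 h2 _).1
  · filter_upwards [hpd.filter_mono nhdsWithin_le_nhds, htr.filter_mono nhdsWithin_le_nhds]
      with s h1 h2
    simp only [slope_def_module, smul_eq_mul]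
    exact (slope_between hpt h1 h2 _).2

end

end Vale.Agent.P369.Fock
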