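import Vale.Agent.P369.Fock.Flow
import Vale.Agent.P369.Fock.VN

/-!
P369: entropy along the loss flow.
-/

namespace Vale.Agent.P369.Fock

noncomputable section

open Matrix Finset Filter
open scoped ComplexConjugate ComplexOrder Matrix.Norms.L2Operator Topology

variable {n K : ℕ}

theorem att_one (ρ : Matrix (Box n K) (Box n K) ℂ) : flow 0 ρ = ρ := by
  ext i i'
  simp only [flow, of_apply, flowN, neg_zero, zero_mul, zero_div, Real.exp_zero, sub_self,
    Complex.ofReal_one, one_mul]
  rw [Fintype.sum_eq_single (fun _ => 0 : Box n K)]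
  · have h0 : occ (fun _ => 0 : Box n K) = 0 := rfl
    simp [h0, deg, cc, ext_occ]
  · intro m hm
    have : deg m ≠ 0 := by
      intro h
      refine hm (funext fun j => Fin.ext ?_)
      exact (sum_eq_zero_iff.1 h j (mem_univ j))
    simp [zero_pow this]

theorem posDef_flow {t : ℝ} (ht : 0 ≤ t) {ρ : Matrix (Box n K) (Box n K) ℂ} (hρ : ρ.PosDef) :
    (flow t ρ).PosDef := by
  rw [flow_eq_att ht]
  exact posDef_att (Real.exp_pos _) hρ

theorem trace_flow {t : ℝ} (ht : 0 ≤ t) (ρ : Matrix (Box n K) (Box n K) ℂ) :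
    (flow t ρ).trace = ρ.trace := by
  rw [flow_eq_att ht]
  exact trace_att (Real.exp_pos _).le (Real.exp_le_one_iff.2 (by linarith)) ρ

theorem continuous_flow (ρ : Matrix (Box n K) (Box n K) ℂ) : Continuous fun t => flow t ρ :=
  continuous_iff_continuousAt.2 fun t => (hasDerivAt_flow_matrix t ρ).continuousAt

/-- `dS/dt = -Tr (L ρ_t · log ρ_t)` -/
theorem hasDerivAt_vN_flow {t : ℝ} (ht : 0 < t) {ρ : Matrix (Box n K) (Box n K) ℂ}
    (hρ : ρ.PosDef) :
    HasDerivAt (fun s => vN (flow s ρ))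
      (-(lossGen (flow t ρ) * CFC.log (flow t ρ)).trace.re) t := by
  refine hasDerivAt_vN ?_ ?_ (hasDerivAt_flow_matrix t ρ)
  · filter_upwards [Ioi_mem_nhds ht] with s hs using posDef_flow (Set.mem_Ioi.1 hs).le hρ
  · filter_upwards [Ioi_mem_nhds ht] with s hs
    rw [trace_flow (Set.mem_Ioi.1 hs).le, trace_flow ht.le]

theorem continuousOn_vN_flow {ρ : Matrix (Box n K) (Box n K) ℂ} (hρ : ρ.PosSemidef) :
    ContinuousOn (fun s => vN (flow s ρ)) (Set.Ici 0) :=
  continuousOn_vN.comp (continuous_flow ρ).continuousOn fun s hs => by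
    rw [flow_eq_att hs]
    exact (posSemidef_att _ hρ).isHermitian

end

end Vale.Agent.P369.Fock
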