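import Vale.Agent.P369.Fock.Att

/-!
P369: the attenuator as a smooth one-parameter flow; its derivative is the loss generator.
-/

namespace Vale.Agent.P369.Fock

noncomputable section

open Matrix Finset
open scoped ComplexConjugate ComplexOrder

variable {n K : ℕ}

/-- combinatorial coefficient of the flow -/
def cc (a b m : Fin n → ℕ) : ℝ :=
  ∏ j, Real.sqrt ((Nat.choose (a j + m j) (m j) : ℝ) * Nat.choose (b j + m j) (m j))

/-- the attenuated matrix at time `t`, on all occupation numbers -/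
def flowN (t : ℝ) (ρ : Matrix (Box n K) (Box n K) ℂ) (a b : Fin n → ℕ) : ℂ :=
  (Real.exp (-t * (((∑ j, a j : ℕ) : ℝ) + (∑ j, b j : ℕ)) / 2) : ℂ) *
    ∑ m : Box n K, ((cc a b (occ m) * (1 - Real.exp (-t)) ^ deg m : ℝ) : ℂ) *
      ext ρ (a + occ m) (b + occ m)

/-- the attenuated matrix at time `t` -/
def flow (t : ℝ) (ρ : Matrix (Box n K) (Box n K) ℂ) : Matrix (Box n K) (Box n K) ℂ :=
  Matrix.of fun i i' => flowN t ρ (occ i) (occ i')

theorem kcoef_mul {t : ℝ} (ht : 0 ≤ t) (a b m : Fin n → ℕ) :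
    kcoef (Real.exp (-t)) a m * kcoef (Real.exp (-t)) b m =
      Real.exp (-t * (((∑ j, a j : ℕ) : ℝ) + (∑ j, b j : ℕ)) / 2) *
        (cc a b m * (1 - Real.exp (-t)) ^ (∑ j, m j)) := by
  have hv : 0 ≤ 1 - Real.exp (-t) := by
    have := Real.exp_le_one_iff.2 (neg_nonpos.2 ht)
    linarith
  have he : Real.exp (-t * (((∑ j, a j : ℕ) : ℝ) + (∑ j, b j : ℕ)) / 2) =
      ∏ j, Real.exp (-t * ((a j : ℝ) + b j) / 2) := by
    rw [← Real.exp_sum]
    congr 1
    push_cast
    rw [← sum_add_distrib, mul_sum, sum_div]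
  rw [he, cc, ← prod_pow_eq_pow_sum, ← prod_mul_distrib, ← prod_mul_distrib, kcoef, kcoef,
    ← prod_mul_distrib]
  refine prod_congr rfl fun j _ => ?_
  rw [← Real.sqrt_mul (by positivity)]
  refine (Real.sqrt_eq_iff_eq_sq (by positivity) (by positivity)).2 ?_
  rw [mul_pow, mul_pow, Real.sq_sqrt (by positivity), ← Real.exp_nat_mul, ← Real.exp_nat_mul,
    ← Real.exp_nat_mul]
  rw [show ((2 : ℕ) : ℝ) * (-t * ((a j : ℝ) + b j) / 2) = (a j : ℝ) * -t + (b j : ℝ) * -t by
    push_cast; ring, Real.exp_add]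
  ring

theorem flow_eq_att {t : ℝ} (ht : 0 ≤ t) (ρ : Matrix (Box n K) (Box n K) ℂ) :
    flow t ρ = att (Real.exp (-t)) ρ := by
  ext i i'
  rw [att_apply, flow, of_apply, flowN, Finset.mul_sum]
  refine sum_congr rfl fun m _ => ?_
  rw [kcoef_mul ht]
  simp only [Complex.ofReal_mul, deg]
  ring

theorem ext_eq_zero_right (ρ : Matrix (Box n K) (Box n K) ℂ) {a b : Fin n → ℕ} {j : Fin n}
    (h : K < b j) : ext ρ a b = 0 := by
  refine sum_eq_zero fun k _ => sum_eq_zero fun k' _ => if_neg fun hk => ?_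
  have := occ_le k' j
  rw [hk.2] at this
  omega

theorem ext_flow (t : ℝ) (ρ : Matrix (Box n K) (Box n K) ℂ) (a b : Fin n → ℕ) :
    ext (flow t ρ) a b = flowN t ρ a b := by
  by_cases ha : ∀ j, a j ≤ K
  · by_cases hb : ∀ j, b j ≤ K
    · obtain ⟨k, rfl⟩ := exists_occ ha
      obtain ⟨k', rfl⟩ := exists_occ hb
      rw [ext_occ]; rfl
    · push Not at hb
      obtain ⟨j, hj⟩ := hb
      have hz : ∀ m : Box n K, ext ρ (a + occ m) (b + occ m) = 0 := fun m =>
        ext_eq_zero_right _ (j := j) (by simp only [Pi.add_apply]; omega)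
      rw [ext_eq_zero_right _ hj, flowN]
      simp [hz]
  · push Not at ha
    obtain ⟨j, hj⟩ := ha
    have hz : ∀ m : Box n K, ext ρ (a + occ m) (b + occ m) = 0 := fun m =>
      ext_eq_zero_left _ (j := j) (by simp only [Pi.add_apply]; omega)
    rw [ext_eq_zero_left _ hj, flowN]
    simp [hz]

theorem ann_conj (j : Fin n) (i k : Box n K) :
    (starRingEnd ℂ) (ann j i k) = ann j i k := by
  unfold ann
  split <;> simp

theorem lossGen_apply (X : Matrix (Box n K) (Box n K) ℂ) (i i' : Box n K) :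
    lossGen X i i' =
      (∑ j, (Real.sqrt (((occ i j : ℝ) + 1) * ((occ i' j : ℝ) + 1)) : ℂ) *
        ext X (occ i + Pi.single j 1) (occ i' + Pi.single j 1))
      - ((deg i : ℂ) + deg i') / 2 * X i i' := by
  simp only [lossGen, Matrix.sum_apply, Matrix.sub_apply, sum_sub_distrib]
  congr 1
  · refine sum_congr rfl fun j _ => ?_
    simp only [mul_apply, conjTranspose_apply, RCLike.star_def, ann_conj, ext, Finset.mul_sum,
      Finset.sum_mul]
    rw [sum_comm]
    refine sum_congr rfl fun k _ => sum_congr rfl fun k' _ => ?_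
    simp only [ann]
    by_cases h1 : occ k = occ i + Pi.single j 1
    swap
    · simp [h1]
    by_cases h2 : occ k' = occ i' + Pi.single j 1
    swap
    · simp [h2]
    rw [if_pos h1, if_pos h2, if_pos ⟨h1, h2⟩]
    have e1 := congrFun h1 j
    have e2 := congrFun h2 j
    simp only [Pi.add_apply, Pi.single_eq_same] at e1 e2
    rw [e1, e2, Real.sqrt_mul (by positivity)]
    push_cast
    ring
  · simp only [Matrix.smul_apply, Matrix.add_apply, num, diagonal_mul, mul_diagonal, smul_eq_mul]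
    rw [← mul_sum, sum_add_distrib, ← sum_mul, ← mul_sum, deg, deg]
    push_cast
    ring

theorem reindex (j : Fin n) (F : (Fin n → ℕ) → ℂ)
    (hF : ∀ a : Fin n → ℕ, K < a j → F a = 0) :
    ∑ m : Box n K, (occ m j : ℂ) * F (occ m) =
      ∑ m : Box n K, ((occ m j : ℂ) + 1) * F (occ m + Pi.single j 1) := by
  rw [← sum_filter_of_ne (s := univ) (p := fun m : Box n K => (m j : ℕ) ≠ 0)
      (fun m _ h h0 => h (by simp [occ, h0])),
    ← sum_filter_of_ne (s := univ) (p := fun m : Box n K => (m j : ℕ) ≠ K)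
      (fun m _ h h0 => h (by rw [hF _ (by simp [occ, h0]), mul_zero]))]
  refine sum_bij'
    (fun m _ => Function.update m j ⟨(m j : ℕ) - 1, by omega⟩)
    (fun m hm => Function.update m j ⟨(m j : ℕ) + 1, by
      have := (mem_filter.1 hm).2
      omega⟩)
    (fun m hm => ?_) (fun m hm => ?_) (fun m hm => ?_) (fun m hm => ?_) (fun m hm => ?_)
  · simp only [mem_filter, mem_univ, true_and, Function.update_self] at hm ⊢
    omega
  · simp only [mem_filter, mem_univ, true_and, Function.update_self] at hm ⊢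
    omega
  · simp only [mem_filter, mem_univ, true_and] at hm
    funext l
    by_cases hl : l = j
    · subst hl; simp only [Function.update_self]; exact Fin.ext (by simp; omega)
    · simp [hl]
  · simp only [mem_filter, mem_univ, true_and] at hm
    funext l
    by_cases hl : l = j
    · subst hl; simp only [Function.update_self]; exact Fin.ext (by simp)
    · simp [hl]
  · simp only [mem_filter, mem_univ, true_and] at hm
    have e : occ m = occ (Function.update m j ⟨(m j : ℕ) - 1, by omega⟩) + Pi.single j 1 := by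
      funext l
      by_cases hl : l = j
      · subst hl; simp [occ]; omega
      · simp [occ, hl]
    rw [← e]
    congr 1
    simp only [occ, Function.update_self]
    rw [← Nat.cast_one (R := ℂ), ← Nat.cast_add]
    congr 1
    omega

theorem cc_succ (a b m : Fin n → ℕ) (j : Fin n) :
    ((m j : ℝ) + 1) * cc a b (m + Pi.single j 1) =
      Real.sqrt (((a j : ℝ) + 1) * ((b j : ℝ) + 1)) *
        cc (a + Pi.single j 1) (b + Pi.single j 1) m := by
  simp only [cc, ← mul_prod_erase univ _ (mem_univ j), ← mul_assoc]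
  congr 1
  · simp only [Pi.add_apply, Pi.single_eq_same]
    have key : ∀ x : ℕ, ((m j : ℝ) + 1) * ((x + (m j + 1)).choose (m j + 1) : ℝ) =
        ((x : ℝ) + 1) * ((x + 1 + m j).choose (m j) : ℝ) := by
      intro x
      have := Nat.choose_succ_right_eq (x + 1 + m j) (m j)
      rw [show x + 1 + m j - m j = x + 1 by omega] at this
      rw [show x + (m j + 1) = x + 1 + m j by omega]
      exact_mod_cast (by rw [mul_comm, this, mul_comm] : (m j + 1) * (x + 1 + m j).choose (m j + 1)
        = (x + 1) * (x + 1 + m j).choose (m j))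
    rw [← Real.sqrt_sq (by positivity : (0:ℝ) ≤ (m j : ℝ) + 1), ← Real.sqrt_mul (by positivity),
      ← Real.sqrt_mul (by positivity)]
    congr 1
    linear_combination ((m j : ℝ) + 1) * ((b j + (m j + 1)).choose (m j + 1) : ℝ) * key (a j) +
      ((a j : ℝ) + 1) * ((a j + 1 + m j).choose (m j) : ℝ) * key (b j)
  · refine prod_congr rfl fun l hl => ?_
    simp [(mem_erase.1 hl).1]

theorem hasDerivAt_flowN (t : ℝ) (ρ : Matrix (Box n K) (Box n K) ℂ) (a b : Fin n → ℕ) :
    HasDerivAt (fun t => flowN t ρ a b)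
      ((∑ j, (Real.sqrt (((a j : ℝ) + 1) * ((b j : ℝ) + 1)) : ℂ) *
          flowN t ρ (a + Pi.single j 1) (b + Pi.single j 1))
        - (((∑ j, a j : ℕ) : ℂ) + (∑ j, b j : ℕ)) / 2 * flowN t ρ a b) t := by
  set A : ℕ := ∑ j, a j with hA
  set B : ℕ := ∑ j, b j with hB
  have he : HasDerivAt (fun t : ℝ => ((Real.exp (-t * ((A : ℝ) + B) / 2) : ℝ) : ℂ))
      ((Real.exp (-t * ((A : ℝ) + B) / 2) * (-((A : ℝ) + B) / 2) : ℝ) : ℂ) t :=
    ((((hasDerivAt_id t).neg.mul_const ((A : ℝ) + B)).div_const 2).exp.congr_deriv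
      (by simp)).ofReal_comp
  have hs : HasDerivAt (fun t : ℝ => ∑ m : Box n K,
      ((cc a b (occ m) * (1 - Real.exp (-t)) ^ deg m : ℝ) : ℂ) * ext ρ (a + occ m) (b + occ m))
      (∑ m : Box n K, ((cc a b (occ m) * ((deg m : ℝ) * (1 - Real.exp (-t)) ^ (deg m - 1) *
        Real.exp (-t)) : ℝ) : ℂ) * ext ρ (a + occ m) (b + occ m)) t := by
    refine HasDerivAt.fun_sum fun m _ => ?_
    refine HasDerivAt.mul_const (HasDerivAt.ofReal_comp ?_) _
    refine HasDerivAt.const_mul _ ?_
    exact (((hasDerivAt_id t).neg.exp.const_sub 1).pow (deg m)).congr_deriv (by simp)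
  refine (he.mul hs).congr_deriv ?_
  rw [add_comm]
  conv_rhs => rw [sub_eq_add_neg]
  congr 1
  · rw [mul_sum]
    have hsplit : ∀ m : Box n K,
        ((Real.exp (-t * ((A : ℝ) + B) / 2) : ℝ) : ℂ) *
          (((cc a b (occ m) * ((deg m : ℝ) * (1 - Real.exp (-t)) ^ (deg m - 1) *
            Real.exp (-t)) : ℝ) : ℂ) * ext ρ (a + occ m) (b + occ m)) =
        ∑ j, (occ m j : ℂ) * ((fun c : Fin n → ℕ =>
          ((Real.exp (-t * ((A : ℝ) + B) / 2) * (cc a b c * (1 - Real.exp (-t)) ^ ((∑ l, c l) - 1) *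
            Real.exp (-t)) : ℝ) : ℂ) * ext ρ (a + c) (b + c)) (occ m)) := by
      intro m
      rw [← sum_mul, deg]
      push_cast
      ring
    rw [sum_congr rfl fun m _ => hsplit m, sum_comm]
    refine sum_congr rfl fun j _ => ?_
    rw [reindex j (fun c : Fin n → ℕ =>
      ((Real.exp (-t * ((A : ℝ) + B) / 2) * (cc a b c * (1 - Real.exp (-t)) ^ ((∑ l, c l) - 1) *
        Real.exp (-t)) : ℝ) : ℂ) * ext ρ (a + c) (b + c))
      (fun c hc => by
        simp [ext_eq_zero_left ρ (a := a + c) (b := b + c) (j := j)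
          (by simp only [Pi.add_apply]; omega)]),
      flowN, mul_sum, mul_sum]
    refine sum_congr rfl fun m _ => ?_
    have hd : (∑ l, (occ m + Pi.single j 1 : Fin n → ℕ) l) - 1 = deg m := by
      simp [sum_add_distrib, deg]
    have hA' : ∑ l, (a + Pi.single j 1 : Fin n → ℕ) l = A + 1 := by simp [sum_add_distrib, hA]
    have hB' : ∑ l, (b + Pi.single j 1 : Fin n → ℕ) l = B + 1 := by simp [sum_add_distrib, hB]
    rw [hA', hB', hd, add_assoc a, add_assoc b, add_comm (Pi.single j 1) (occ m)]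
    have hexp : Real.exp (-t * (((A + 1 : ℕ) : ℝ) + (B + 1 : ℕ)) / 2) =
        Real.exp (-t * ((A : ℝ) + B) / 2) * Real.exp (-t) := by
      rw [← Real.exp_add]; congr 1; push_cast; ring
    rw [hexp]
    have hc : ((occ m j : ℂ) + 1) * (cc a b (occ m + Pi.single j 1) : ℂ) =
        (Real.sqrt (((a j : ℝ) + 1) * ((b j : ℝ) + 1)) : ℂ) *
          (cc (a + Pi.single j 1) (b + Pi.single j 1) (occ m) : ℂ) := by
      exact_mod_cast cc_succ a b (occ m) j
    simp only [Complex.ofReal_mul]
    linear_combination ((Real.exp (-t * ((A : ℝ) + B) / 2) : ℂ) *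
      ((1 - Real.exp (-t)) ^ deg m : ℝ) * (Real.exp (-t) : ℂ) *
      ext ρ (a + (occ m + Pi.single j 1)) (b + (occ m + Pi.single j 1))) * hc
  · simp only [flowN, ← hA, ← hB]
    push_cast
    ring

/-- entrywise derivative of the flow -/
theorem hasDerivAt_flow (t : ℝ) (ρ : Matrix (Box n K) (Box n K) ℂ) (i i' : Box n K) :
    HasDerivAt (fun t => flow t ρ i i') (lossGen (flow t ρ) i i') t := by
  rw [lossGen_apply]
  simp only [ext_flow]
  exact hasDerivAt_flowN t ρ (occ i) (occ i')

section norm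

open scoped Matrix.Norms.L2Operator

/-- derivative of the flow as matrices -/
theorem hasDerivAt_flow_matrix (t : ℝ) (ρ : Matrix (Box n K) (Box n K) ℂ) :
    HasDerivAt (fun t => flow t ρ) (lossGen (flow t ρ)) t := by
  let L : (Box n K → Box n K → ℂ) →L[ℝ] Matrix (Box n K) (Box n K) ℂ :=
    LinearMap.toContinuousLinearMap
      { toFun := fun f => Matrix.of f, map_add' := fun _ _ => rfl, map_smul' := fun _ _ => rfl }
  have h : HasDerivAt (fun t => (fun i i' => flow t ρ i i'))
      (fun i i' => lossGen (flow t ρ) i i') t :=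
    hasDerivAt_pi.2 fun i => hasDerivAt_pi.2 fun i' => hasDerivAt_flow t ρ i i'
  exact L.hasFDerivAt.comp_hasDerivAt t h

end norm

end

end Vale.Agent.P369.Fock
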