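import Vale.Agent.P369.Fock.Pinch

/-!
P369: states on the whole Fock space, the attenuator, and the entropy as a limit over boxes.
-/

namespace Vale.Agent.P369.Fock

noncomputable section

open Matrix Finset Filter
open scoped ComplexConjugate ComplexOrder Matrix.Norms.L2Operator Topology

variable {n : ℕ}

/-- operators on the Fock space, given by their matrix in the occupation basis -/
abbrev Op (n : ℕ) := (Fin n → ℕ) → (Fin n → ℕ) → ℂ

/-- compression to a box -/
def compress (K : ℕ) (ρ : Op n) : Matrix (Box n K) (Box n K) ℂ :=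
  Matrix.of fun k k' => ρ (occ k) (occ k')

/-- positive, with finite mean photon number -/
structure Pre (ρ : Op n) : Prop where
  psd : ∀ K, (compress K ρ).PosSemidef
  energy : Summable fun a : Fin n → ℕ => ((∑ j, a j : ℕ) : ℝ) * (ρ a a).re

/-- the attenuator on the whole Fock space -/
def attInf (η : ℝ) (ρ : Op n) : Op n := fun a b =>
  ∑' m : Fin n → ℕ, ((kcoef η a m * kcoef η b m : ℝ) : ℂ) * ρ (a + m) (b + m)

/-- finite energy outside a box -/
def tail (L : ℕ) (ρ : Op n) : ℝ :=
  ∑' a : Fin n → ℕ, if ∀ j, a j ≤ L then 0 else ((∑ j, a j : ℕ) : ℝ) * (ρ a a).re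

/-- entropy as the limit of the entropies of the compressions -/
def entropy (ρ : Op n) : ℝ := limUnder atTop fun K => vN (compress K ρ)

variable {ρ : Op n}

theorem Pre.diag_nonneg (h : Pre ρ) (a : Fin n → ℕ) : 0 ≤ (ρ a a).re := by
  obtain ⟨k, hk⟩ := exists_occ (K := ∑ j, a j) (a := a) (fun j => single_le_sum
    (f := a) (fun _ _ => Nat.zero_le _) (mem_univ j))
  have := (Complex.nonneg_iff.1 ((h.psd (∑ j, a j)).diag_nonneg (i := k))).1
  simpa [compress, hk] using this

theorem Pre.energy_term_nonneg (h : Pre ρ) (a : Fin n → ℕ) :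
    0 ≤ ((∑ j, a j : ℕ) : ℝ) * (ρ a a).re :=
  mul_nonneg (Nat.cast_nonneg _) (h.diag_nonneg a)

theorem Pre.summable_diag (h : Pre ρ) : Summable fun a : Fin n → ℕ => (ρ a a).re := by
  classical
  have h0 : Summable fun a : Fin n → ℕ => if a = 0 then (ρ a a).re else 0 :=
    summable_of_ne_finset_zero (s := {0}) fun a ha => if_neg (by simpa using ha)
  refine (h0.add h.energy).of_nonneg_of_le h.diag_nonneg fun a => ?_
  by_cases ha : a = 0
  · simp [ha]
  have h1 : 1 ≤ ∑ j, a j := by
    by_contra hc
    exact ha (funext fun j => (sum_eq_zero_iff.1 (Nat.lt_one_iff.1 (not_le.1 hc)) j (mem_univ j)))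
  rw [if_neg ha, zero_add]
  exact le_mul_of_one_le_left (h.diag_nonneg a) (by exact_mod_cast h1)

theorem Pre.norm_le (h : Pre ρ) (a b : Fin n → ℕ) :
    ‖ρ a b‖ ≤ (ρ a a).re + (ρ b b).re := by
  by_cases hab : a = b
  · subst hab
    obtain ⟨k, hk⟩ := exists_occ (K := ∑ j, a j) (a := a) (fun j => single_le_sum
      (f := a) (fun _ _ => Nat.zero_le _) (mem_univ j))
    have hn := Complex.norm_of_nonneg (h.diag_nonneg a)
    have him := (Complex.nonneg_iff.1 ((h.psd (∑ j, a j)).diag_nonneg (i := k))).2
    simp only [compress, of_apply, hk] at him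
    have he : ρ a a = ((ρ a a).re : ℂ) := Complex.ext (by simp) (by simp [← him])
    rw [he, hn]
    simp [h.diag_nonneg a]
  set K := (∑ j, a j) + ∑ j, b j with hK
  obtain ⟨k, hk⟩ := exists_occ (K := K) (a := a) (fun j => le_add_right (single_le_sum
    (f := a) (fun _ _ => Nat.zero_le _) (mem_univ j)))
  obtain ⟨l, hl⟩ := exists_occ (K := K) (a := b) (fun j => le_add_left (single_le_sum
    (f := b) (fun _ _ => Nat.zero_le _) (mem_univ j)))
  have hS := (h.psd K).submatrix ![k, l]
  have hdet := hS.det_nonneg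
  have hherm := hS.isHermitian.apply 0 1
  rw [det_fin_two] at hdet
  simp only [submatrix_apply, cons_val_zero, cons_val_one, compress, of_apply, hk, hl,
    RCLike.star_def] at hdet hherm
  rw [← hherm, mul_comm (starRingEnd ℂ (ρ b a)), Complex.mul_conj] at hdet
  have h2 := (Complex.nonneg_iff.1 hdet).1
  simp only [Complex.sub_re, Complex.mul_re, Complex.ofReal_re] at h2
  have ha0 := h.diag_nonneg a
  have hb0 := h.diag_nonneg b
  have hkk := (h.psd K).isHermitian.apply k k
  have hia : (ρ a a).im = 0 := by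
    simp only [compress, of_apply, hk, RCLike.star_def] at hkk
    exact Complex.conj_eq_iff_im.1 hkk
  rw [hia, zero_mul, sub_zero] at h2
  rw [← hherm, Complex.norm_conj]
  have h3 : ‖ρ b a‖ ^ 2 ≤ ((ρ a a).re + (ρ b b).re) ^ 2 := by
    rw [Complex.sq_norm]
    nlinarith
  exact (sq_le_sq₀ (norm_nonneg _) (by positivity)).1 h3

theorem tail_nonneg (h : Pre ρ) (L : ℕ) : 0 ≤ tail L ρ :=
  tsum_nonneg fun a => by split; exacts [le_rfl, h.energy_term_nonneg a]

theorem tendsto_tail (h : Pre ρ) : Tendsto (fun L => tail L ρ) atTop (𝓝 0) := by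
  have := tendsto_tsum_of_dominated_convergence (𝓕 := atTop)
    (f := fun L (a : Fin n → ℕ) => if ∀ j, a j ≤ L then (0:ℝ) else
      ((∑ j, a j : ℕ) : ℝ) * (ρ a a).re) (g := fun _ => (0:ℝ)) h.energy
    (fun a => tendsto_const_nhds.congr' (by
      filter_upwards [eventually_ge_atTop (∑ j, a j)] with L hL
      rw [if_pos fun j => (single_le_sum (f := a) (fun _ _ => Nat.zero_le _) (mem_univ j)).trans hL]))
    (Eventually.of_forall fun L a => by
      split
      · rw [norm_zero]; exact h.energy_term_nonneg a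
      · rw [Real.norm_of_nonneg (h.energy_term_nonneg a)])
  simpa [tail] using this

theorem tendsto_sum_box (f : (Fin n → ℕ) → ℝ) (hf : Summable f) :
    Tendsto (fun K => ∑ k : Box n K, f (occ k)) atTop (𝓝 (∑' a, f a)) := by
  classical
  have h1 : Tendsto (fun K => (univ : Finset (Box n K)).image occ) atTop atTop :=
    tendsto_atTop_finset_of_monotone
      (fun K K' hKK' a ha => by
        obtain ⟨k, -, rfl⟩ := mem_image.1 ha
        obtain ⟨k', hk'⟩ := exists_occ (K := K') (a := occ k) (fun j => (occ_le k j).trans hKK')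
        exact mem_image.2 ⟨k', mem_univ _, hk'⟩)
      (fun a => by
        obtain ⟨k, hk⟩ := exists_occ (K := ∑ j, a j) (a := a) (fun j => single_le_sum
          (f := a) (fun _ _ => Nat.zero_le _) (mem_univ j))
        exact ⟨_, mem_image.2 ⟨k, mem_univ _, hk⟩⟩)
  exact (hf.hasSum.comp h1).congr fun K => sum_image fun a _ b _ h => occ_injective h

theorem ext_compress (K : ℕ) (ρ : Op n) (a b : Fin n → ℕ) :
    ext (compress K ρ) a b = if (∀ j, a j ≤ K) ∧ ∀ j, b j ≤ K then ρ a b else 0 := by
  split_ifs with h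
  · obtain ⟨k, rfl⟩ := exists_occ h.1
    obtain ⟨k', rfl⟩ := exists_occ h.2
    rw [ext_occ]; rfl
  · refine sum_eq_zero fun k _ => sum_eq_zero fun k' _ => if_neg fun hk => h ?_
    rw [← hk.1, ← hk.2]
    exact ⟨occ_le k, occ_le k'⟩

/-- tail estimate for the compressions of a finite-energy operator -/
theorem vN_compress_le (h : Pre ρ) {L K : ℕ} (hLK : L ≤ K) :
    vN (compress K ρ) ≤ vN (compress L ρ) + (2 * tail L ρ + 2 ^ n / (L + 1)) := by
  classical
  have hrw : (Matrix.of fun k k' : Box n L => ext (compress K ρ) (occ k) (occ k')) =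
      compress L ρ := by
    ext k k'
    simp only [of_apply, ext_compress]
    rw [if_pos ⟨fun j => (occ_le k j).trans hLK, fun j => (occ_le k' j).trans hLK⟩]
    rfl
  have hs := vN_le_tail hLK (h.psd K)
  rw [hrw] at hs
  refine hs.trans (add_le_add le_rfl (add_le_add (mul_le_mul_of_nonneg_left ?_ two_pos.le) le_rfl))
  have hsum : Summable fun a : Fin n → ℕ =>
      if ∀ j, a j ≤ L then (0:ℝ) else ((∑ j, a j : ℕ) : ℝ) * (ρ a a).re :=
    h.energy.of_nonneg_of_le (fun a => by split; exacts [le_rfl, h.energy_term_nonneg a])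
      (fun a => by split; exacts [h.energy_term_nonneg a, le_rfl])
  have := hsum.sum_le_tsum ((univ : Finset (Box n K)).image occ)
    (fun a _ => by split; exacts [le_rfl, h.energy_term_nonneg a])
  rw [sum_image fun a _ b _ h => occ_injective h] at this
  exact this

theorem vN_ge {ι : Type*} [Fintype ι] [DecidableEq ι] {A : Matrix ι ι ℂ} (hA : A.PosSemidef)
    {T : ℝ} (hT : A.trace.re ≤ T) (h1 : 1 ≤ T) : -(T * Real.log T) ≤ vN A := by
  rw [vN_eq_sum hA.isHermitian]
  have hle : ∀ i, hA.isHermitian.eigenvalues i ≤ T := fun i =>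
    (single_le_sum (fun j _ => hA.eigenvalues_nonneg j) (mem_univ i)).trans
      ((trace_re_eq_sum hA.isHermitian).symm.le.trans hT)
  have hl : 0 ≤ Real.log T := Real.log_nonneg h1
  calc -(T * Real.log T) ≤ ∑ i, -(hA.isHermitian.eigenvalues i * Real.log T) := by
        rw [sum_neg_distrib, ← sum_mul, ← trace_re_eq_sum hA.isHermitian]
        exact neg_le_neg (mul_le_mul_of_nonneg_right hT hl)
    _ ≤ _ := sum_le_sum fun i _ => by
        rcases (hA.eigenvalues_nonneg i).eq_or_lt with h | h
        · simp [← h]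
        rw [Real.negMulLog, neg_mul]
        exact neg_le_neg (mul_le_mul_of_nonneg_left (Real.log_le_log h (hle i)) h.le)

/-- the entropy limit exists -/
theorem tendsto_entropy (h : Pre ρ) :
    Tendsto (fun K => vN (compress K ρ)) atTop (𝓝 (entropy ρ)) := by
  classical
  set a : ℕ → ℝ := fun K => vN (compress K ρ) with ha
  set err : ℕ → ℝ := fun L => 2 * tail L ρ + 2 ^ n / (L + 1) with he
  have herr : Tendsto err atTop (𝓝 0) := by
    simpa [he, div_eq_mul_inv] using ((tendsto_tail h).const_mul 2).add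
      ((tendsto_one_div_add_atTop_nhds_zero_nat (𝕜 := ℝ)).const_mul ((2:ℝ) ^ n))
  have hmono : ∀ L K, L ≤ K → a K ≤ a L + err L := fun L K hLK => vN_compress_le h hLK
  set T : ℝ := max 1 (∑' x, (ρ x x).re) with hT
  have hlow : ∀ K, -(T * Real.log T) ≤ a K := by
    intro K
    refine vN_ge (h.psd K) ?_ (le_max_left _ _)
    refine le_trans ?_ (le_max_right _ _)
    rw [trace, Complex.re_sum]
    have := h.summable_diag.sum_le_tsum ((univ : Finset (Box n K)).image occ)
      (fun x _ => h.diag_nonneg x)
    rw [sum_image fun a _ b _ h => occ_injective h] at this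
    exact this
  have hbdd : BddBelow (Set.range fun L => a L + err L) :=
    ⟨-(T * Real.log T), by
      rintro _ ⟨L, rfl⟩
      have : 0 ≤ err L := by
        have := tail_nonneg h L
        positivity
      linarith [hlow L]⟩
  set s : ℝ := ⨅ L, (a L + err L) with hs
  have hlim : Tendsto a atTop (𝓝 s) := by
    rw [tendsto_order]
    constructor
    · intro x hx
      have : ∀ᶠ K in atTop, err K < s - x := herr.eventually_lt_const (by linarith)
      filter_upwards [this] with K hK
      have := ciInf_le hbdd K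
      linarith
    · intro x hx
      obtain ⟨L, hL⟩ := exists_lt_of_ciInf_lt hx
      filter_upwards [eventually_ge_atTop L] with K hK
      exact (hmono L K hK).trans_lt hL
  exact tendsto_nhds_limUnder ⟨s, hlim⟩

end

end Vale.Agent.P369.Fock
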