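import Vale.Agent.P369.Fock.Att
import Vale.Agent.P369.Fock.VN

/-!
P369: pinching inequality for the entropy and the tail estimate it gives on a box.
-/

namespace Vale.Agent.P369.Fock

noncomputable section

open Matrix Finset Filter
open scoped ComplexConjugate ComplexOrder Matrix.Norms.L2Operator Topology

variable {ι κ : Type*} [Fintype ι] [DecidableEq ι] [Fintype κ] [DecidableEq κ]

/-- the entropy is at most the entropy of the diagonal in any orthonormal basis -/
theorem vN_le_diag {A : Matrix ι ι ℂ} (hA : A.PosSemidef) (W : Matrix ι κ ℂ)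
    (h1 : Wᴴ * W = 1) (h2 : W * Wᴴ = 1) :
    vN A ≤ ∑ j, Real.negMulLog ((Wᴴ * A * W) j j).re := by
  have ha := hA.isHermitian
  set U : Matrix ι ι ℂ := (ha.eigenvectorUnitary : Matrix ι ι ℂ) with hU
  set Z : Matrix ι κ ℂ := Uᴴ * W with hZ
  have hz1 : Zᴴ * Z = 1 := by
    rw [hZ, conjTranspose_mul, conjTranspose_conjTranspose, Matrix.mul_assoc,
      ← Matrix.mul_assoc U, eig_mul_star, Matrix.one_mul, h1]
  have hz2 : Z * Zᴴ = 1 := by
    rw [hZ, conjTranspose_mul, conjTranspose_conjTranspose, Matrix.mul_assoc,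
      ← Matrix.mul_assoc W, h2, Matrix.one_mul, eig_star_mul]
  have hrow : ∀ i, ∑ j, Complex.normSq (Z i j) = 1 := by
    intro i
    have := congrArg (fun M : Matrix ι ι ℂ => (M i i).re) hz2
    simpa [mul_apply, Complex.mul_conj, Complex.re_sum] using this
  have hcol : ∀ j, ∑ i, Complex.normSq (Z i j) = 1 := by
    intro j
    have := congrArg (fun M : Matrix κ κ ℂ => (M j j).re) hz1
    simpa [mul_apply, ← Complex.normSq_eq_conj_mul_self, Complex.re_sum] using this
  have hd : ∀ j, ((Wᴴ * A * W) j j).re = ∑ i, Complex.normSq (Z i j) * ha.eigenvalues i := by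
    intro j
    have e : Wᴴ * A * W = Zᴴ * (diagonal (RCLike.ofReal ∘ ha.eigenvalues) : Matrix ι ι ℂ) * Z := by
      conv_lhs => rw [ha.spectral_theorem, Unitary.conjStarAlgAut_apply, star_eq_conjTranspose]
      rw [hZ, conjTranspose_mul, conjTranspose_conjTranspose]
      simp only [Matrix.mul_assoc, hU]
    rw [e, mul_apply, Complex.re_sum]
    refine sum_congr rfl fun i _ => ?_
    rw [mul_diagonal, conjTranspose_apply, RCLike.star_def, Function.comp_apply,
      mul_right_comm, ← Complex.normSq_eq_conj_mul_self]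
    simp only [RCLike.ofReal_alg, Complex.real_smul, mul_one, ← Complex.ofReal_mul,
      Complex.ofReal_re]
  calc vN A = ∑ i, Real.negMulLog (ha.eigenvalues i) := vN_eq_sum ha
    _ = ∑ i, ∑ j, Complex.normSq (Z i j) * Real.negMulLog (ha.eigenvalues i) := by
        simp [← sum_mul, hrow]
    _ = ∑ j, ∑ i, Complex.normSq (Z i j) * Real.negMulLog (ha.eigenvalues i) := sum_comm
    _ ≤ ∑ j, Real.negMulLog ((Wᴴ * A * W) j j).re := by
        refine sum_le_sum fun j _ => ?_
        rw [hd]
        simpa [smul_eq_mul] using Real.concaveOn_negMulLog.le_map_sum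
          (fun i _ => Complex.normSq_nonneg (Z i j)) (hcol j)
          (fun i _ => Set.mem_Ici.2 (hA.eigenvalues_nonneg i))

/-- pinching: a block keeps its entropy, the rest is replaced by its diagonal -/
theorem vN_le_pinch {α β : Type*} [Fintype α] [DecidableEq α] [Fintype β] [DecidableEq β]
    (E : α ⊕ β ≃ ι) {A : Matrix ι ι ℂ} (hA : A.PosSemidef) :
    vN A ≤ vN (A.submatrix (E ∘ Sum.inl) (E ∘ Sum.inl))
      + ∑ r, Real.negMulLog (A (E (Sum.inr r)) (E (Sum.inr r))).re := by
  set B := A.submatrix (E ∘ Sum.inl) (E ∘ Sum.inl) with hB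
  have hb : B.IsHermitian := (hA.submatrix _).isHermitian
  set V : Matrix α α ℂ := (hb.eigenvectorUnitary : Matrix α α ℂ) with hV
  set T : Matrix (α ⊕ β) (α ⊕ β) ℂ := fromBlocks V 0 0 1 with hT
  set P : Matrix ι (α ⊕ β) ℂ := (1 : Matrix ι ι ℂ).submatrix id E with hP
  have hPA : Pᴴ * A * P = A.submatrix E E := by
    ext i j
    simp [hP, mul_apply, one_apply]
  have hP1 : Pᴴ * P = 1 := by
    ext i j
    simp [hP, mul_apply, one_apply, E.injective.eq_iff]
  have hP2 : P * Pᴴ = 1 := by
    ext i j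
    rw [mul_apply, ← E.symm.sum_comp]
    simp [hP, one_apply, Matrix.conjTranspose_apply]
  have hT1 : Tᴴ * T = 1 := by
    rw [hT, fromBlocks_conjTranspose, fromBlocks_multiply]
    simp [hV, eig_star_mul, fromBlocks_one]
  have hT2 : T * Tᴴ = 1 := by
    rw [hT, fromBlocks_conjTranspose, fromBlocks_multiply]
    simp [hV, eig_mul_star, fromBlocks_one]
  refine (vN_le_diag hA (P * T) ?_ ?_).trans (le_of_eq ?_)
  · rw [conjTranspose_mul, Matrix.mul_assoc, ← Matrix.mul_assoc Pᴴ, hP1, Matrix.one_mul, hT1]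
  · rw [conjTranspose_mul, Matrix.mul_assoc, ← Matrix.mul_assoc T, hT2, Matrix.one_mul, hP2]
  have e : (P * T)ᴴ * A * (P * T) = Tᴴ * (A.submatrix E E) * T := by
    rw [← hPA, conjTranspose_mul]
    simp only [Matrix.mul_assoc]
  have hdec : A.submatrix E E = fromBlocks B (A.submatrix E E).toBlocks₁₂
      (A.submatrix E E).toBlocks₂₁ (A.submatrix E E).toBlocks₂₂ :=
    (fromBlocks_toBlocks _).symm
  rw [e, hdec, hT, fromBlocks_conjTranspose, fromBlocks_multiply, fromBlocks_multiply,
    Fintype.sum_sum_type]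
  congr 1
  · rw [vN_eq_sum hb]
    refine sum_congr rfl fun i _ => ?_
    have : Vᴴ * B * V = diagonal (RCLike.ofReal ∘ hb.eigenvalues) := by
      simpa [hV, Unitary.conjStarAlgAut_apply, star_eq_conjTranspose] using
        hb.conjStarAlgAut_star_eigenvectorUnitary
    simp [this]
  · refine sum_congr rfl fun r _ => ?_
    simp [toBlocks₂₂]

variable {n K : ℕ}

theorem sum_half_pow_le (n K : ℕ) :
    ∑ k : Box n K, ((1:ℝ) / 2) ^ deg k ≤ 2 ^ n := by
  have : ∀ k : Box n K, ((1:ℝ) / 2) ^ deg k = ∏ j, ((1:ℝ) / 2) ^ (k j : ℕ) := fun k => by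
    rw [deg, prod_pow_eq_pow_sum]; rfl
  simp only [this]
  rw [← Fintype.prod_sum (fun (_ : Fin n) (x : Fin (K + 1)) => ((1:ℝ) / 2) ^ (x : ℕ)),
    prod_const, card_univ, Fintype.card_fin]
  refine pow_le_pow_left₀ (sum_nonneg fun _ _ => by positivity) ?_ n
  rw [Fin.sum_univ_eq_sum_range (fun x => ((1:ℝ) / 2) ^ x)]
  exact sum_geometric_two_le _

/-- entropy of a box matrix against a smaller box plus an energy tail -/
theorem vN_le_tail {L : ℕ} (hLK : L ≤ K) {X : Matrix (Box n K) (Box n K) ℂ} (hX : X.PosSemidef) :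
    vN X ≤ vN (Matrix.of fun k k' : Box n L => ext X (occ k) (occ k'))
      + (2 * ∑ k : Box n K, (if ∀ j, (k j : ℕ) ≤ L then 0 else (deg k : ℝ) * (X k k).re)
        + 2 ^ n / (L + 1)) := by
  classical
  let e : Box n L → Box n K := fun k j => Fin.castLE (by omega) (k j)
  have hocc : ∀ k, occ (e k) = occ k := fun k => rfl
  have hinj : Function.Injective e := fun a b h => occ_injective (by rw [← hocc a, ← hocc b, h])
  let E : Box n L ⊕ {k : Box n K // k ∉ Set.range e} ≃ Box n K :=
    ((Equiv.ofInjective e hinj).sumCongr (Equiv.refl _)).trans (Equiv.sumCompl _)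
  have hEl : ∀ k, E (Sum.inl k) = e k := fun k => rfl
  have hEr : ∀ r, E (Sum.inr r) = r.1 := fun r => rfl
  refine (vN_le_pinch E hX).trans (add_le_add (le_of_eq ?_) ?_)
  · congr 1
    ext k k'
    simp only [submatrix_apply, Function.comp_apply, hEl, of_apply, ← hocc, ext_occ]
  simp only [hEr]
  have hout : ∀ r : {k : Box n K // k ∉ Set.range e}, ¬ ∀ j, (r.1 j : ℕ) ≤ L := by
    intro r h
    exact r.2 ⟨fun j => ⟨r.1 j, by have := h j; omega⟩, occ_injective rfl⟩
  have hdeg : ∀ r : {k : Box n K // k ∉ Set.range e}, (L : ℝ) + 1 ≤ deg r.1 := by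
    intro r
    have := hout r
    push Not at this
    obtain ⟨j, hj⟩ := this
    have h2 : L + 1 ≤ deg r.1 :=
      le_trans hj (single_le_sum (f := fun j => occ r.1 j) (fun _ _ => Nat.zero_le _) (mem_univ j))
    exact_mod_cast h2
  calc ∑ r : {k : Box n K // k ∉ Set.range e}, Real.negMulLog (X r.1 r.1).re
      ≤ ∑ r : {k : Box n K // k ∉ Set.range e},
          (2 * ((deg r.1 : ℝ) * (X r.1 r.1).re) + ((1:ℝ) / 2) ^ deg r.1 / (L + 1)) := by
        refine sum_le_sum fun r _ => ?_
        have hp : 0 ≤ (X r.1 r.1).re := (Complex.nonneg_iff.1 (hX.diag_nonneg (i := r.1))).1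
        have hL : (0:ℝ) < L + 1 := by positivity
        refine (negMulLog_le_klein hp
          (b := ((1:ℝ) / 2) ^ deg r.1 / (L + 1)) (by positivity)).trans ?_
        rw [Real.log_div (by positivity) hL.ne', Real.log_pow, one_div, Real.log_inv]
        have h2 : Real.log 2 ≤ 1 := by
          have := Real.log_le_sub_one_of_pos (by norm_num : (0:ℝ) < 2)
          linarith
        have hl : Real.log ((L : ℝ) + 1) ≤ deg r.1 := by
          have := Real.log_le_sub_one_of_pos hL
          linarith [hdeg r]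
        have hd0 : (0:ℝ) ≤ deg r.1 := Nat.cast_nonneg _
        nlinarith [mul_le_mul_of_nonneg_left h2 hd0, mul_nonneg hp hd0]
    _ = ∑ r : {k : Box n K // k ∉ Set.range e}, (fun k : Box n K =>
          2 * (if ∀ j, (k j : ℕ) ≤ L then 0 else (deg k : ℝ) * (X k k).re)
            + ((1:ℝ) / 2) ^ deg k / (L + 1)) r.1 := by
        refine sum_congr rfl fun r _ => ?_
        simp only [if_neg (hout r)]
    _ ≤ ∑ k : Box n K, (2 * (if ∀ j, (k j : ℕ) ≤ L then 0 else (deg k : ℝ) * (X k k).re)
            + ((1:ℝ) / 2) ^ deg k / (L + 1)) := by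
        refine le_of_eq_of_le (sum_subtype (univ.filter fun k => k ∉ Set.range e) (by simp)
          (fun k : Box n K => 2 * (if ∀ j, (k j : ℕ) ≤ L then 0 else (deg k : ℝ) * (X k k).re)
            + ((1:ℝ) / 2) ^ deg k / (L + 1))).symm ?_
        refine sum_le_sum_of_subset_of_nonneg (subset_univ _) fun k _ _ => ?_
        have hp : 0 ≤ (X k k).re := (Complex.nonneg_iff.1 (hX.diag_nonneg (i := k))).1
        split <;> positivity
    _ ≤ _ := by
        rw [sum_add_distrib, ← mul_sum, ← sum_div]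
        gcongr
        exact sum_half_pow_le n K

end

end Vale.Agent.P369.Fock
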